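import Vale.Agent.P299.H723.D.Stmt
import Vale.Agent.P272.BR.Stay

/-! Holomorphic isometries of a compact Hermitian manifold: speed of discs, equicontinuity. -/

open scoped Manifold ContDiff ComplexOrder Topology
open Complex Set Filter Metric

set_option linter.unusedSectionVars false

noncomputable section

namespace Vale.Agent.P299.H720

open Vale.Agent.P272.K Vale.Agent.P272.BR Vale.Agent.P299.D
open Vale.Agent.P272.K.LIN (Cov)

variable {n : ℕ} {X : Type*} [TopologicalSpace X] [ChartedSpace (Cm n) X]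
  {w : FormM n X} {f g : X → X} {e e' e'' : Chart n X} {x : X}

/-- holomorphic maps preserving the metric `w` -/
structure IsHolIso (w : FormM n X) (f : X → X) : Prop where
  hol : ContMDiff 𝓘(ℂ, Cm n) 𝓘(ℂ, Cm n) ω f
  iso : ∀ e x, At e x → pullM f w e (e x) = w e (e x)

lemma jacF_eq (f : X → X) (e e' : Chart n X) (x : X) :
    jacF f e e' x = jmat (fun z => e' (f (e.symm z))) (e x) := rfl

/-- the preimage under `f` of a chart domain -/
lemma nhds_at_map (hf : ContinuousAt f x) (h : At e x) (h' : At e' (f x)) :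
    ∀ᶠ z in 𝓝 (e x), z ∈ e.target ∧ At e (e.symm z) ∧ At e' (f (e.symm z)) := by
  have h1 : Tendsto e.symm (𝓝 (e x)) (𝓝 x) := by
    have := e.continuousAt_symm h.mem_target
    rwa [ContinuousAt, h.left_inv] at this
  have h2 : ∀ᶠ z in 𝓝 (e x), f (e.symm z) ∈ e'.source :=
    (hf.tendsto.comp h1).eventually (e'.open_source.mem_nhds h'.2)
  filter_upwards [h.nhds_target, h2] with z hz hz'
  exact ⟨hz, At.of_target h.1 hz, ⟨h'.1, hz'⟩⟩

variable [IsManifold 𝓘(ℂ, Cm n) ω X]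

lemma rep_contDiffAt (hf : ContMDiffAt 𝓘(ℂ, Cm n) 𝓘(ℂ, Cm n) ω f x) (h : At e x)
    (h' : At e' (f x)) : ContDiffAt ℂ ω (fun z => e' (f (e.symm z))) (e x) := by
  rw [← contMDiffAt_iff_contDiffAt]
  have h1 := chart_symm_contMDiffAt h.1 h.mem_target
  have h2 : ContMDiffAt 𝓘(ℂ, Cm n) 𝓘(ℂ, Cm n) ω (fun z => f (e.symm z)) (e x) :=
    ContMDiffAt.comp (e x) (g := f) (by rw [h.left_inv]; exact hf) h1
  refine ContMDiffAt.comp (e x) (g := e') ?_ h2
  rw [h.left_inv]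
  exact chart_contMDiffAt h'

lemma rep_differentiableAt (hf : ContMDiffAt 𝓘(ℂ, Cm n) 𝓘(ℂ, Cm n) ω f x) (h : At e x)
    (h' : At e' (f x)) : DifferentiableAt ℂ (fun z => e' (f (e.symm z))) (e x) :=
  (rep_contDiffAt hf h h').differentiableAt (by simp)

lemma jacF_change_left (hf : ContMDiffAt 𝓘(ℂ, Cm n) 𝓘(ℂ, Cm n) ω f x) (h : At e x)
    (h' : At e' (f x)) (h'' : At e'' (f x)) :
    jacF f e e'' x = jacM e' e'' (f x) * jacF f e e' x := by
  rw [jacF_eq, jacF_eq, jacM_eq]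
  have h1 : (fun z => e'' (f (e.symm z))) =ᶠ[𝓝 (e x)]
      fun z => e'' (e'.symm (e' (f (e.symm z)))) := by
    filter_upwards [nhds_at_map hf.continuousAt h h'] with z hz
    rw [hz.2.2.left_inv]
  rw [jmat_congr h1]
  have h2 : e' (f (e.symm (e x))) = e' (f x) := by rw [h.left_inv]
  have := jmat_comp (τ := fun z => e' (f (e.symm z))) (σ := fun z => e'' (e'.symm z)) (z := e x)
    (by rw [h2]; exact transition_differentiableAt h' h'') (rep_differentiableAt hf h h')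
  rw [this, h2]

lemma IsHolIso.quad (hw : IsHermitian w) (hf : IsHolIso w f) (h : At e x) (h' : At e' (f x))
    (v : Cm n) :
    quad (w e' (e' (f x))) ((jacF f e e' x).mulVec v) = quad (w e (e x)) v := by
  have hc := at_chartAt (n := n) (f x)
  have h1 := hf.iso e x h
  have h2 : pullM f w e (e x) = (jacF f e (chartAt (Cm n) (f x)) x).transpose *
      w (chartAt (Cm n) (f x)) (chartAt (Cm n) (f x) (f x)) *
      (jacF f e (chartAt (Cm n) (f x)) x).map (starRingEnd ℂ) := by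
    unfold pullM
    rw [h.left_inv]
  rw [← h1, h2, quad_change, jacF_change_left hf.hol.contMDiffAt h h' hc,
    hw.change e' _ (f x) h' hc, quad_change, Matrix.mulVec_mulVec]

/-- the velocity of `f ∘ u` -/
lemma vel_map {u : ℂ → X} {ζ : ℂ} (hf : ContMDiffAt 𝓘(ℂ, Cm n) 𝓘(ℂ, Cm n) ω f (u ζ))
    (hu : HolAt n u ζ) (h : At e (u ζ)) (h' : At e' (f (u ζ))) :
    HasDerivAt (fun ζ => e' (f (u ζ))) ((jacF f e e' (u ζ)).mulVec (vel u e ζ)) ζ := by
  have hτ := rep_differentiableAt hf h h'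
  have h1 : HasDerivAt (fun ζ => (fun w => e' (f (e.symm w))) (e (u ζ)))
      (fderiv ℂ (fun w => e' (f (e.symm w))) (e (u ζ)) (vel u e ζ)) ζ :=
    HasFDerivAt.comp_hasDerivAt (l := fun w => e' (f (e.symm w))) ζ hτ.hasFDerivAt
      (hu.hasDerivAt h)
  have h2 : (fun ζ => e' (f (u ζ))) =ᶠ[𝓝 ζ] fun ζ => (fun w => e' (f (e.symm w))) (e (u ζ)) := by
    filter_upwards [HolAt.eventually_at hu.1 h] with ζ hζ
    simp only [hζ.left_inv]
  have h3 := h1.congr_of_eventuallyEq h2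
  have h4 : (jacF f e e' (u ζ)).mulVec (vel u e ζ) =
      fderiv ℂ (fun w => e' (f (e.symm w))) (e (u ζ)) (vel u e ζ) := by
    funext p
    rw [jmat_mulVec hτ]
    rfl
  rw [h4]
  exact h3

lemma holAt_map {u : ℂ → X} {ζ : ℂ} (hf : ContMDiffAt 𝓘(ℂ, Cm n) 𝓘(ℂ, Cm n) ω f (u ζ))
    (hu : HolAt n u ζ) : HolAt n (fun ζ => f (u ζ)) ζ := by
  refine ⟨ContinuousAt.comp (g := f) hf.continuousAt hu.1, fun e' he' => ?_⟩
  exact (vel_map hf hu (at_chartAt (n := n) (u ζ)) he').differentiableAt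

/-- holomorphic isometries preserve the speed -/
lemma IsHolIso.spd_map (hw : IsHermitian w) (hf : IsHolIso w f) {u : ℂ → X} {ζ : ℂ}
    (hu : HolAt n u ζ) : spd w (fun ζ => f (u ζ)) ζ = spd w u ζ := by
  have h := at_chartAt (n := n) (u ζ)
  have h' := at_chartAt (n := n) (f (u ζ))
  have h1 : vel (fun ζ => f (u ζ)) (chartAt (Cm n) (f (u ζ))) ζ =
      (jacF f (chartAt (Cm n) (u ζ)) (chartAt (Cm n) (f (u ζ))) (u ζ)).mulVec
        (vel u (chartAt (Cm n) (u ζ)) ζ) :=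
    (vel_map hf.hol.contMDiffAt hu h h').deriv
  unfold spd
  rw [h1, hf.quad hw h h']

/-- **Equicontinuity** of the holomorphic isometries, in the charts of a cover: near `x`, all of them
stay in the chart ball of the image of `x`. -/
theorem equi_chart [T2Space X] {𝒞 : Cov (Cm n) X} {L : ℝ} (hL : CovConst 𝒞 w L)
    (hw : IsHermitian w) (x : X) : ∃ U ∈ 𝓝 x, ∀ f, IsHolIso w f → ∀ i,
      f x ∈ (𝒞.e i).source → 𝒞.e i (f x) ∈ ball (𝒞.c i) (𝒞.r i) → ∀ y ∈ U,
      f y ∈ (𝒞.e i).source ∧ 𝒞.e i (f y) ∈ ball (𝒞.c i) (2 * 𝒞.r i) := by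
  classical
  set e : Chart n X := chartAt (Cm n) x with he
  have hat : At e x := at_chartAt x
  have hL0 : 0 < L := by linarith [hL.1]
  -- a closed ball in the chart and a bound for the metric
  obtain ⟨R, hR, hRt⟩ := Metric.nhds_basis_closedBall.mem_iff.1 (e.open_target.mem_nhds hat.mem_target)
  obtain ⟨C, hC, hCb⟩ := exists_quad_lower (isCompact_closedBall (e x) R) (fun _ => 1)
    (fun z => w e z) (fun i j => continuousOn_const)
    (fun i j => (hw.continuousOn_entry hat.1 i j).mono hRt) (fun z _ => Matrix.PosDef.one)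
  have hone : ∀ v : Cm n, (quad (1 : Matrix (Fin n) (Fin n) ℂ) v).re ≤ (n : ℝ) * ‖v‖ ^ 2 := by
    intro v
    have h1 : (quad (1 : Matrix (Fin n) (Fin n) ℂ) v).re = ∑ i, ‖v i‖ ^ 2 := by
      unfold P272.K.quad
      rw [re_sum]
      refine Finset.sum_congr rfl fun i _ => ?_
      rw [Finset.sum_eq_single i]
      · rw [Matrix.one_apply_eq, one_mul]
        simp only [cj]
        rw [mul_conj, ofReal_re, normSq_eq_norm_sq]
      · intro j _ hj
        rw [Matrix.one_apply_ne hj.symm, zero_mul]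
      · simp
    rw [h1]
    calc ∑ i, ‖v i‖ ^ 2 ≤ ∑ _i : Fin n, ‖v‖ ^ 2 :=
          Finset.sum_le_sum fun i _ => by gcongr; exact norm_le_pi_norm v i
      _ = (n : ℝ) * ‖v‖ ^ 2 := by simp
  -- the minimal radius
  obtain ⟨r₀, hr₀, hr₀'⟩ := Cov.exists_pos_le (fun i => 𝒞.r i) 𝒞.r_pos
  -- the size of the neighbourhood
  set K : ℝ := C * (n + 1) with hK
  have hK0 : 0 < K := by positivity
  set δ : ℝ := min (R / 2) (r₀ / (2 * L * (K + 1))) with hδ
  have hδ0 : 0 < δ := by positivity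
  refine ⟨e.source ∩ e ⁻¹' ball (e x) δ, (e.isOpen_inter_preimage isOpen_ball).mem_nhds
    ⟨hat.2, mem_ball_self hδ0⟩, fun f hf i hi hib y hy => ?_⟩
  set v : Cm n := e y - e x with hv
  have hvδ : ‖v‖ < δ := by
    have := hy.2
    rwa [mem_preimage, mem_ball, dist_eq_norm] at this
  -- the disc
  set u : ℂ → X := fun ζ => e.symm (e x + ζ • v) with hu
  have hmem : ∀ ζ ∈ ball (0 : ℂ) 2, e x + ζ • v ∈ closedBall (e x) R := by
    intro ζ hζ
    rw [mem_ball_zero_iff] at hζ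
    rw [mem_closedBall, dist_eq_norm, add_sub_cancel_left, norm_smul]
    have h1 : δ ≤ R / 2 := min_le_left _ _
    nlinarith [norm_nonneg ζ, norm_nonneg v]
  have hder : ∀ ζ : ℂ, HasDerivAt (fun ζ : ℂ => e x + ζ • v) v ζ := by
    intro ζ
    simpa using ((hasDerivAt_id ζ).smul_const v).const_add (e x)
  have hhol : ∀ ζ ∈ ball (0 : ℂ) 2, HolAt n u ζ := fun ζ hζ =>
    holAt_symm hat.1 (hRt (hmem ζ hζ)) (hder ζ).differentiableAt
  have hC1 : ∀ ζ ∈ ball (0 : ℂ) 2, spd w u ζ ≤ K * ‖v‖ ^ 2 := by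
    intro ζ hζ
    have h1 : At e (u ζ) := At.of_target hat.1 (hRt (hmem ζ hζ))
    have h2 : vel u e ζ = v := by
      have h3 : (fun ζ => e (u ζ)) =ᶠ[𝓝 ζ] fun ζ => e x + ζ • v := by
        filter_upwards [isOpen_ball.mem_nhds hζ] with ξ hξ
        exact e.right_inv (hRt (hmem ξ hξ))
      exact ((hder ζ).congr_of_eventuallyEq h3).deriv
    rw [spd_eq hw (hhol ζ hζ) h1, h2]
    have h4 : e (u ζ) = e x + ζ • v := e.right_inv (hRt (hmem ζ hζ))
    rw [h4]
    calc (P272.K.quad (w e (e x + ζ • v)) v).re ≤ C * (P272.K.quad 1 v).re :=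
          hCb _ (hmem ζ hζ) v
      _ ≤ C * (n * ‖v‖ ^ 2) := by gcongr; exact hone v
      _ ≤ K * ‖v‖ ^ 2 := by
          rw [hK]
          nlinarith [sq_nonneg ‖v‖, mul_nonneg hC.le (sq_nonneg ‖v‖)]
  -- the constant speed bound
  set C' : ℝ := (K + 1) * δ with hC'
  have hC'0 : 0 < C' := by positivity
  have hsp : ∀ ζ ∈ ball (0 : ℂ) 2, HolAt n (fun ζ => f (u ζ)) ζ ∧
      spd w (fun ζ => f (u ζ)) ζ ≤ C' ^ 2 := by
    intro ζ hζ
    refine ⟨holAt_map hf.hol.contMDiffAt (hhol ζ hζ), ?_⟩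
    rw [hf.spd_map hw (hhol ζ hζ)]
    refine (hC1 ζ hζ).trans ?_
    rw [hC', mul_pow]
    have h5 : ‖v‖ ^ 2 ≤ δ ^ 2 := by
      have := norm_nonneg v
      gcongr
    have h6 : K ≤ (K + 1) ^ 2 := by nlinarith
    have h7 : 0 ≤ δ ^ 2 := sq_nonneg _
    calc K * ‖v‖ ^ 2 ≤ K * δ ^ 2 := by gcongr
      _ ≤ (K + 1) ^ 2 * δ ^ 2 := by gcongr
  have hu0 : u 0 = x := by
    simp only [hu, zero_smul, add_zero]
    exact hat.left_inv
  have hu1 : u 1 = y := by
    simp only [hu, one_smul, hv, add_sub_cancel]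
    exact e.left_inv hy.1
  have hsmall : ‖(1 : ℂ) - 0‖ < 𝒞.r i / (L * C') := by
    rw [sub_zero, norm_one, lt_div_iff₀ (by positivity), one_mul, hC']
    have h8 : δ ≤ r₀ / (2 * L * (K + 1)) := min_le_right _ _
    have h9 : L * ((K + 1) * δ) ≤ r₀ / 2 := by
      calc L * ((K + 1) * δ) ≤ L * ((K + 1) * (r₀ / (2 * L * (K + 1)))) := by gcongr
        _ = r₀ / 2 := by field_simp
    have h10 := hr₀' i
    linarith
  have key := stay (f := fun ζ => f (u ζ)) (z := (0 : ℂ)) (w := (1 : ℂ)) (i := i) hL hw hC'0 hsp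
    (by simp only [hu0]; exact hi) (by simp only [hu0]; exact hib)
    (by rw [mem_ball_zero_iff, norm_one]; norm_num) hsmall
  simpa only [hu1] using key

end Vale.Agent.P299.H720
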