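import Vale.Agent.P299.H720.Iso
import Mathlib.Topology.Metrizable.Urysohn
import Mathlib.Geometry.Manifold.IsManifold.Basic

/-! The group of holomorphic isometries of a compact Hermitian manifold, and a metric invariant
under it. -/

open scoped Manifold ContDiff ComplexOrder Topology
open Complex Set Filter Metric

set_option linter.unusedSectionVars false

noncomputable section

namespace Vale.Agent.P299.H720

open Vale.Agent.P272.K Vale.Agent.P272.BR Vale.Agent.P299.D
open Vale.Agent.P272.K.LIN (Cov)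

variable {n : ℕ} {X : Type*} [TopologicalSpace X] [ChartedSpace (Cm n) X]
  {w : FormM n X} {f g : X → X} {e e' e'' : Chart n X} {x : X}

lemma jacF_id (e e' : Chart n X) (x : X) : jacF (fun x : X => x) e e' x = jacM e e' x := rfl

variable [IsManifold 𝓘(ℂ, Cm n) ω X]

lemma jacF_comp (hf : ContMDiffAt 𝓘(ℂ, Cm n) 𝓘(ℂ, Cm n) ω f (g x))
    (hg : ContMDiffAt 𝓘(ℂ, Cm n) 𝓘(ℂ, Cm n) ω g x) (h : At e x)
    (h' : At e' (g x)) (h'' : At e'' (f (g x))) :
    jacF (fun x => f (g x)) e e'' x = jacF f e' e'' (g x) * jacF g e e' x := by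
  rw [jacF_eq, jacF_eq, jacF_eq]
  have h1 : (fun z => e'' (f (g (e.symm z)))) =ᶠ[𝓝 (e x)]
      fun z => (fun y => e'' (f (e'.symm y))) (e' (g (e.symm z))) := by
    filter_upwards [nhds_at_map hg.continuousAt h h'] with z hz
    simp only [hz.2.2.left_inv]
  rw [jmat_congr h1]
  have h2 : e' (g (e.symm (e x))) = e' (g x) := by rw [h.left_inv]
  have := jmat_comp (τ := fun z => e' (g (e.symm z))) (σ := fun y => e'' (f (e'.symm y)))
    (z := e x) (by rw [h2]; exact rep_differentiableAt hf h' h'') (rep_differentiableAt hg h h')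
  rw [this, h2]

lemma IsHolIso.pull (hw : IsHermitian w) (hf : IsHolIso w f) (h : At e x) (h' : At e' (f x)) :
    (jacF f e e' x).transpose * w e' (e' (f x)) * (jacF f e e' x).map (starRingEnd ℂ) =
      w e (e x) := by
  have hc := at_chartAt (n := n) (f x)
  have h1 := hf.iso e x h
  have h2 : pullM f w e (e x) = (jacF f e (chartAt (Cm n) (f x)) x).transpose *
      w (chartAt (Cm n) (f x)) (chartAt (Cm n) (f x) (f x)) *
      (jacF f e (chartAt (Cm n) (f x)) x).map (starRingEnd ℂ) := by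
    unfold pullM
    rw [h.left_inv]
  rw [← h1, h2, jacF_change_left hf.hol.contMDiffAt h h' hc,
    hw.change e' _ (f x) h' hc, Matrix.transpose_mul, Matrix.map_mul]
  simp only [Matrix.mul_assoc]

lemma isHolIso_of_pull (hf : ContMDiff 𝓘(ℂ, Cm n) 𝓘(ℂ, Cm n) ω f)
    (h : ∀ e e' x, At e x → At e' (f x) →
      (jacF f e e' x).transpose * w e' (e' (f x)) * (jacF f e e' x).map (starRingEnd ℂ) =
      w e (e x)) : IsHolIso w f := by
  refine ⟨hf, fun e x hx => ?_⟩
  have h2 : pullM f w e (e x) = (jacF f e (chartAt (Cm n) (f x)) x).transpose *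
      w (chartAt (Cm n) (f x)) (chartAt (Cm n) (f x) (f x)) *
      (jacF f e (chartAt (Cm n) (f x)) x).map (starRingEnd ℂ) := by
    unfold pullM
    rw [hx.left_inv]
  rw [h2]
  exact h _ _ _ hx (at_chartAt (f x))

lemma isHolIso_id (hw : IsHermitian w) : IsHolIso w (fun x => x) := by
  refine isHolIso_of_pull contMDiff_id fun e e' x h h' => ?_
  rw [jacF_id]
  exact (hw.change e e' x h h').symm

lemma IsHolIso.comp (hw : IsHermitian w) (hf : IsHolIso w f) (hg : IsHolIso w g) :
    IsHolIso w (fun x => f (g x)) := by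
  refine isHolIso_of_pull (hf.hol.comp hg.hol) fun e e'' x h h'' => ?_
  have h' := at_chartAt (n := n) (g x)
  rw [jacF_comp hf.hol.contMDiffAt hg.hol.contMDiffAt h h' h'', Matrix.transpose_mul,
    Matrix.map_mul]
  have h1 := hf.pull hw h' h''
  have h2 := hg.pull hw h h'
  rw [← h2, ← h1]
  simp only [Matrix.mul_assoc]

/-- the group of holomorphic isometries -/
def isoGroup (hw : IsHermitian w) : Subgroup (Equiv.Perm X) where
  carrier := {f | IsHolIso w f ∧ IsHolIso w f.symm}
  mul_mem' := by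
    rintro a b ⟨ha, ha'⟩ ⟨hb, hb'⟩
    have h1 : IsHolIso w (fun x => a (b x)) := ha.comp hw hb
    have h2 : IsHolIso w (fun x => b.symm (a.symm x)) := hb'.comp hw ha'
    exact ⟨h1, h2⟩
  one_mem' := ⟨isHolIso_id hw, isHolIso_id hw⟩
  inv_mem' := by
    rintro a ⟨ha, ha'⟩
    exact ⟨ha', ha⟩

lemma mem_isoGroup (hw : IsHermitian w) {a : Equiv.Perm X} :
    a ∈ isoGroup hw ↔ IsHolIso w a ∧ IsHolIso w a.symm := Iff.rfl

/-- equicontinuity for a metric -/
theorem equi_dist {X : Type*} [MetricSpace X] [CompactSpace X] [ChartedSpace (Cm n) X]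
    [IsManifold 𝓘(ℂ, Cm n) ω X] {w : FormM n X} (hw : IsHermitian w) (x : X) {ε : ℝ}
    (hε : 0 < ε) : ∃ U ∈ 𝓝 x, ∀ f, IsHolIso w f → ∀ y ∈ U, dist (f x) (f y) < ε := by
  have h : ∀ p : X, ∃ r : ℝ, 0 < r ∧
      closedBall (chartAt (Cm n) p p) (3 * r) ⊆ (chartAt (Cm n) p).target ∩
        (chartAt (Cm n) p).symm ⁻¹' ball p (ε / 2) := by
    intro p
    have h1 : (chartAt (Cm n) p).target ∩ (chartAt (Cm n) p).symm ⁻¹' ball p (ε / 2) ∈
        𝓝 (chartAt (Cm n) p p) := by
      refine ((chartAt (Cm n) p).symm.isOpen_inter_preimage isOpen_ball).mem_nhds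
        ⟨mem_chart_target (Cm n) p, ?_⟩
      rw [mem_preimage, (chartAt (Cm n) p).left_inv (mem_chart_source (Cm n) p)]
      exact mem_ball_self (by positivity)
    obtain ⟨R, hR, hRs⟩ := Metric.nhds_basis_closedBall.mem_iff.1 h1
    exact ⟨R / 3, by positivity, by rwa [mul_div_cancel₀ _ (by norm_num : (3 : ℝ) ≠ 0)]⟩
  choose r hr hrs using h
  obtain ⟨𝒞, p, hp⟩ := Cov.exists_cov (Cm n) X (fun x => chartAt (Cm n) x)
    (fun x => chart_mem_atlas (Cm n) x) (fun x => mem_chart_source (Cm n) x) r hr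
    (fun x => (hrs x).trans inter_subset_left)
  obtain ⟨L, hL⟩ := exists_cov_const 𝒞 hw
  obtain ⟨U, hU, hUf⟩ := equi_chart (show CovConst 𝒞 w L from hL) hw x
  refine ⟨U, hU, fun f hf y hy => ?_⟩
  obtain ⟨i, hi, hib⟩ := 𝒞.cover (f x)
  obtain ⟨h1, h2⟩ := hUf f hf i hi hib y hy
  obtain ⟨q1, q2, q3⟩ := hp i
  have hball : ∀ y : X, y ∈ (𝒞.e i).source → 𝒞.e i y ∈ ball (𝒞.c i) (2 * 𝒞.r i) →
      dist y (p i) < ε / 2 := by
    intro y hy hyb
    have hri := 𝒞.r_pos i
    have h3 : 𝒞.e i y ∈ closedBall (𝒞.c i) (3 * 𝒞.r i) :=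
      closedBall_subset_closedBall (by linarith) (ball_subset_closedBall hyb)
    have h4 : 𝒞.e i y ∈ closedBall (chartAt (Cm n) (p i) (p i)) (3 * r (p i)) := by
      rw [← q2, ← q3]; exact h3
    have h5 := (hrs (p i) h4).2
    rw [mem_preimage, ← q1, (𝒞.e i).left_inv hy, mem_ball] at h5
    exact h5
  have h6 := hball (f y) h1 h2
  have h7 := hball (f x) hi (ball_subset_ball (by linarith [𝒞.r_pos i]) hib)
  calc dist (f x) (f y) ≤ dist (f x) (p i) + dist (p i) (f y) := dist_triangle _ _ _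
    _ < ε := by rw [dist_comm (p i)]; linarith

/-- **An invariant metric**: on a compact Hermitian manifold there is a metric, compatible with the
topology, for which all holomorphic isometries are isometries. -/
theorem exists_invariant_metric {X : Type*} [T : TopologicalSpace X] [T2Space X] [CompactSpace X]
    [ChartedSpace (Cm n) X] [IsManifold 𝓘(ℂ, Cm n) ω X] {w : FormM n X} (hw : IsHermitian w) :
    ∃ m : MetricSpace X, m.toUniformSpace.toTopologicalSpace = T ∧
      ∀ f : Equiv.Perm X, f ∈ isoGroup hw → ∀ x y, m.dist (f x) (f y) = m.dist x y := by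
  classical
  have : SecondCountableTopology X := ChartedSpace.secondCountable_of_sigmaCompact (Cm n) X
  have : TopologicalSpace.MetrizableSpace X :=
    TopologicalSpace.metrizableSpace_of_t3_secondCountable X
  let m₀ : MetricSpace X := TopologicalSpace.metrizableSpaceMetric X
  let G : Subgroup (Equiv.Perm X) := isoGroup hw
  let D : X → X → ℝ := fun x y => ⨆ f : G, dist ((f : Equiv.Perm X) x) ((f : Equiv.Perm X) y)
  have hb : ∀ x y, BddAbove (range fun f : G => dist ((f : Equiv.Perm X) x)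
      ((f : Equiv.Perm X) y)) := by
    intro x y
    refine ⟨Metric.diam (univ : Set X), ?_⟩
    rintro _ ⟨f, rfl⟩
    exact Metric.dist_le_diam_of_mem isCompact_univ.isBounded (mem_univ _) (mem_univ _)
  have hle : ∀ (f : G) x y, dist ((f : Equiv.Perm X) x) ((f : Equiv.Perm X) y) ≤ D x y :=
    fun f x y => le_ciSup (hb x y) f
  have hle1 : ∀ x y, dist x y ≤ D x y := fun x y => hle 1 x y
  have hD0 : ∀ x, D x x = 0 := by
    intro x
    simp only [D, dist_self, ciSup_const]
  have hDc : ∀ x y, D x y = D y x := by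
    intro x y
    simp only [D]
    congr 1
    funext f
    rw [dist_comm]
  have hDt : ∀ x y z, D x z ≤ D x y + D y z := by
    intro x y z
    refine ciSup_le fun f => ?_
    exact (dist_triangle _ _ _).trans (add_le_add (hle f x y) (hle f y z))
  have hinv : ∀ f : Equiv.Perm X, f ∈ G → ∀ x y, D (f x) (f y) = D x y := by
    have h1 : ∀ f : Equiv.Perm X, f ∈ G → ∀ x y, D (f x) (f y) ≤ D x y := by
      intro f hf x y
      refine ciSup_le fun g => ?_
      exact hle (g * ⟨f, hf⟩) x y
    intro f hf x y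
    refine le_antisymm (h1 f hf x y) ?_
    have h2 := h1 f⁻¹ (G.inv_mem hf) (f x) (f y)
    have e1 : ∀ x, f⁻¹ (f x) = x := fun x => f.symm_apply_apply x
    rwa [e1, e1] at h2
  have hopen : ∀ s : Set X, IsOpen s ↔ ∀ x ∈ s, ∃ ε > 0, ∀ y, D x y < ε → y ∈ s := by
    intro s
    constructor
    · intro hs x hx
      obtain ⟨ε, hε, h⟩ := Metric.isOpen_iff.1 hs x hx
      refine ⟨ε, hε, fun y hy => h ?_⟩
      rw [mem_ball, dist_comm]
      exact (hle1 x y).trans_lt hy
    · intro h
      rw [isOpen_iff_mem_nhds]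
      intro x hx
      obtain ⟨ε, hε, hs⟩ := h x hx
      obtain ⟨U, hU, hUf⟩ := equi_dist hw x (half_pos hε)
      refine mem_of_superset hU fun y hy => hs y ?_
      refine lt_of_le_of_lt (ciSup_le fun f => (hUf _ f.2.1 y hy).le) (half_lt_self hε)
  let m : MetricSpace X := MetricSpace.ofDistTopology D hD0 hDc hDt hopen fun x y hxy => by
    have h1 := hle1 x y
    rw [hxy] at h1
    exact dist_le_zero.1 h1
  exact ⟨m, rfl, fun f hf x y => hinv f hf x y⟩

end Vale.Agent.P299.H720
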