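import Vale.Agent.P299.H720.D4a
import Vale.Agent.P299.H954.VF

/-! **D4 (a, b)** -/

namespace Vale.Agent.P299.H720

open Vale.Agent.P299.D

/-- **D4 (a, b)**: on the compact Ricci flat factor there is a nowhere zero section of the
anticanonical bundle, invariant under a subgroup of finite index of the deck group. -/
theorem d4a : D4aStatement :=
  d4a_of fun _ _ _ _ _ _ _ _ _ hw hr _ hv => H954.isParVF_of_ricZero hw hr hv

end Vale.Agent.P299.H720
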