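import Vale.Agent.P299.H720.D5
import Vale.Agent.P299.H800.D5.Smooth

/-! **D5** -/

namespace Vale.Agent.P299.H720

open Vale.Agent.P299.D

/-- **D5**: a finitely generated abelian group of holomorphic isometries of a compact connected
Kähler manifold has a subgroup of finite index contained in a torus of holomorphic isometries. -/
theorem d5 : D5Statement :=
  d5_of
    (fun _ _ _ _ _ _ _ _ hw _ _ _ hf _ hS h hi =>
      ⟨H800.D5.closure_hol hf hS h, H800.D5.closure_iso hf hS h hw hi⟩)
    (fun _ _ _ _ _ _ _ _ a zero add cont hol => H800.D5.smooth_of_cont a zero add cont hol)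

end Vale.Agent.P299.H720
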