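import Vale.Agent.P278.Bdl.B2
import Vale.Agent.P299.H720.FlatLoc

/-! A holomorphic line bundle with a flat metric on a simply connected complex manifold has a
holomorphic section of constant length `1`. -/

open scoped Manifold ContDiff ComplexOrder Topology
open Complex Set Filter Metric

namespace Vale.Agent.P299.H720

open Vale.Agent.P272.K

variable {n : ℕ} {X : Type*} [TopologicalSpace X] [ChartedSpace (Cm n) X]

/-- Transition functions of a holomorphic line bundle in the charts of the atlas; its sections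
satisfy `s e = t e e' * s e'`. -/
structure IsCocycle (t : Chart n X → Chart n X → X → ℂ) : Prop where
  holo : ∀ e e' x, At e x → At e' x → ContDiffAt ℂ ω (fun z => t e e' (e.symm z)) (e x)
  mul : ∀ e e' e'' x, At e x → At e' x → At e'' x → t e e' x * t e' e'' x = t e e'' x
  self : ∀ e x, At e x → t e e x = 1

variable {t : Chart n X → Chart n X → X → ℂ} {φ : Chart n X → Cm n → ℝ} {F F' : X → ℂ}
  {e e' : Chart n X} {x : X}

lemma IsCocycle.ne_zero (ht : IsCocycle t) (h : At e x) (h' : At e' x) : t e e' x ≠ 0 := by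
  intro h0
  have h1 := ht.mul e e' e x h h' h
  rw [ht.self e x h, h0, zero_mul] at h1
  exact zero_ne_one h1

lemma at_chart (x : X) : At (chartAt (Cm n) x : Chart n X) x :=
  ⟨chart_mem_atlas (Cm n) x, mem_chart_source (Cm n) x⟩

/-- the coefficient in the chart `e` of the section with coefficient `F x` in the chart at `x` -/
noncomputable def cf (t : Chart n X → Chart n X → X → ℂ) (F : X → ℂ) (e : Chart n X) (z : Cm n) : ℂ :=
  t e (chartAt (Cm n) (e.symm z)) (e.symm z) * F (e.symm z)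

lemma cf_apply (h : At e x) : cf t F e (e x) = t e (chartAt (Cm n) x) x * F x := by
  unfold cf
  rw [h.left_inv]

lemma cf_change (ht : IsCocycle t) (h : At e x) (h' : At e' x) :
    cf t F e (e x) = t e e' x * cf t F e' (e' x) := by
  rw [cf_apply h, cf_apply h', ← mul_assoc, ht.mul e e' _ x h h' (at_chart x)]

/-- `F` is at `y` a holomorphic section with `|F|² = exp φ` -/
def Good (t : Chart n X → Chart n X → X → ℂ) (φ : Chart n X → Cm n → ℝ) (F : X → ℂ) (y : X) :
    Prop :=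
  ∀ e, At e y → ContDiffAt ℂ ω (cf t F e) (e y) ∧ ‖cf t F e (e y)‖ ^ 2 = Real.exp (φ e (e y))

/-- equality near `x` gives equality of the coefficients near `e x` -/
lemma cf_congr (h : At e x) (hF : F =ᶠ[𝓝 x] F') : cf t F e =ᶠ[𝓝 (e x)] cf t F' e := by
  have h1 : Tendsto e.symm (𝓝 (e x)) (𝓝 x) := by
    have := e.continuousAt_symm h.mem_target
    rwa [ContinuousAt, h.left_inv] at this
  filter_upwards [h1.eventually hF] with z hz
  unfold cf
  rw [hz]

lemma Good.congr (h : Good t φ F x) (hF : F =ᶠ[𝓝 x] F') : Good t φ F' x := by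
  intro e he
  obtain ⟨h1, h2⟩ := h e he
  have h3 := cf_congr (t := t) he hF
  exact ⟨h1.congr_of_eventuallyEq h3.symm, by rw [← h3.self_of_nhds]; exact h2⟩

/-- the germs of sections -/
def germs (t : Chart n X → Chart n X → X → ℂ) (φ : Chart n X → Cm n → ℝ) (x : X) :
    Set (Germ (𝓝 x) ℂ) :=
  {γ | ∃ F : X → ℂ, (F : Germ (𝓝 x) ℂ) = γ ∧ ∀ᶠ y in 𝓝 x, Good t φ F y}

lemma mem_germs : ((F : X → ℂ) : Germ (𝓝 x) ℂ) ∈ germs t φ x ↔ ∀ᶠ y in 𝓝 x, Good t φ F y := by
  constructor
  · rintro ⟨F', h1, h2⟩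
    have h3 : F' =ᶠ[𝓝 x] F := Germ.coe_eq.1 h1
    filter_upwards [h2, h3.eventuallyEq_nhds] with y hy hy'
    exact hy.congr hy'
  · intro h
    exact ⟨F, rfl, h⟩

variable [IsManifold 𝓘(ℂ, Cm n) ω X]

lemma good_of_chart (ht : IsCocycle t)
    (hφc : ∀ e e' x, At e x → At e' x → φ e (e x) = φ e' (e' x) + Real.log (‖t e e' x‖ ^ 2))
    (h : At e x) (h1 : ContDiffAt ℂ ω (cf t F e) (e x))
    (h2 : ‖cf t F e (e x)‖ ^ 2 = Real.exp (φ e (e x))) : Good t φ F x := by
  intro e' h'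
  constructor
  · have h3 : cf t F e' =ᶠ[𝓝 (e' x)]
        fun z => t e' e (e'.symm z) * cf t F e (e (e'.symm z)) := by
      filter_upwards [h'.nhds_at h] with z hz
      have := cf_change (F := F) ht hz.2.1 hz.2.2
      rwa [e'.right_inv hz.1] at this
    refine ContDiffAt.congr_of_eventuallyEq ?_ h3
    refine (ht.holo e' e x h' h).mul ?_
    refine ContDiffAt.comp (e' x) (g := cf t F e) ?_ (transition h' h)
    rw [h'.left_inv]
    exact h1
  · rw [cf_change ht h' h, norm_mul, mul_pow, h2, hφc e' e x h' h, Real.exp_add,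
      Real.exp_log (by have := ht.ne_zero h' h; positivity)]
    ring

/-- local triviality -/
lemma germs_local (ht : IsCocycle t)
    (hφ : ∀ e x, At e x → ContDiffAt ℝ 2 (φ e) (e x))
    (hφc : ∀ e e' x, At e x → At e' x → φ e (e x) = φ e' (e' x) + Real.log (‖t e e' x‖ ^ 2))
    (h0 : ∀ e x, At e x → cHess (φ e) (e x) = 0) (x : X) :
    ∃ (U : Set X) (S : Set (X → ℂ)), IsOpen U ∧ x ∈ U ∧ S.Nonempty ∧
      (∀ f ∈ S, ∀ y ∈ U, ((f : X → ℂ) : Germ (𝓝 y) ℂ) ∈ germs t φ y) ∧
      (∀ y ∈ U, ∀ γ ∈ germs t φ y, ∃ f ∈ S, ((f : X → ℂ) : Germ (𝓝 y) ℂ) = γ) ∧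
      (∀ f ∈ S, ∀ f' ∈ S, ∀ y ∈ U, f =ᶠ[𝓝 y] f' → ∀ z ∈ U, f =ᶠ[𝓝 z] f') := by
  set e : Chart n X := chartAt (Cm n) x with he
  have hat : At e x := at_chart x
  obtain ⟨r, hr, hrB⟩ := Metric.isOpen_iff.1 e.open_target (e x) hat.mem_target
  set B : Set (Cm n) := ball (e x) r with hB
  have hatB : ∀ z ∈ B, At e (e.symm z) := fun z hz => At.of_target hat.1 (hrB hz)
  have hri : ∀ z ∈ B, e (e.symm z) = z := fun z hz => e.right_inv (hrB hz)
  obtain ⟨s, hs, hsφ⟩ := exists_local_section (φ := φ e) isOpen_ball (convex_ball (e x) r)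
    (fun z hz => by have := hφ e _ (hatB z hz); rwa [hri z hz] at this)
    (fun z hz => by have := h0 e _ (hatB z hz); rwa [hri z hz] at this)
  have hs0 : ∀ z ∈ B, s z ≠ 0 := by
    intro z hz h
    have := hsφ z hz
    rw [h, norm_zero] at this
    have h2 := Real.exp_pos (φ e z)
    rw [← this] at h2
    norm_num at h2
  set U : Set X := e.source ∩ e ⁻¹' B with hU
  have hUo : IsOpen U := e.isOpen_inter_preimage isOpen_ball
  have hatU : ∀ y ∈ U, At e y := fun y hy => ⟨hat.1, hy.1⟩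
  -- the section with constant `c`
  classical
  let G : ℂ → X → ℂ := fun c y => c * s (e y) / t e (chartAt (Cm n) y) y
  have hG : ∀ c, ∀ z ∈ B, cf t (G c) e z = c * s z := by
    intro c z hz
    show t e _ _ * (c * s (e (e.symm z)) / t e _ _) = _
    rw [hri z hz, mul_div_cancel₀ _ (ht.ne_zero (hatB z hz) (at_chart _))]
  let S : Set (X → ℂ) := {f | ∃ c : ℂ, ‖c‖ = 1 ∧ ∀ z ∈ B, cf t f e z = c * s z}
  refine ⟨U, S, hUo, ⟨hat.2, mem_ball_self hr⟩, ⟨G 1, 1, norm_one, hG 1⟩, ?_, ?_, ?_⟩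
  · rintro f ⟨c, hc, hf⟩ y hy
    rw [mem_germs]
    filter_upwards [hUo.mem_nhds hy] with y' hy'
    have hy'' : e y' ∈ B := hy'.2
    have h1 : cf t f e =ᶠ[𝓝 (e y')] fun z => c * s z := by
      filter_upwards [isOpen_ball.mem_nhds hy''] with z hz using hf z hz
    refine good_of_chart ht hφc (hatU y' hy') ?_ ?_
    · exact (contDiffAt_const.mul (contDiffAt_of_diffOn isOpen_ball hs hy'')).congr_of_eventuallyEq h1
    · rw [hf _ hy'', norm_mul, hc, one_mul, hsφ _ hy'']
  · intro y hy γ hγ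
    obtain ⟨F, rfl, hF⟩ := hγ
    have hey : e y ∈ B := hy.2
    have haty := hatU y hy
    -- a small ball
    have h1 : ∀ᶠ z in 𝓝 (e y), Good t φ F (e.symm z) := by
      have h2 : Tendsto e.symm (𝓝 (e y)) (𝓝 y) := by
        have := e.continuousAt_symm haty.mem_target
        rwa [ContinuousAt, haty.left_inv] at this
      exact h2.eventually hF
    obtain ⟨ρ, hρ, hρB⟩ := Metric.mem_nhds_iff.1 (h1.and (isOpen_ball.mem_nhds hey))
    have hgood : ∀ z ∈ ball (e y) ρ, ContDiffAt ℂ ω (cf t F e) z ∧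
        ‖cf t F e z‖ ^ 2 = Real.exp (φ e z) := by
      intro z hz
      have h3 := (hρB hz).1 e (hatB z (hρB hz).2)
      rwa [hri z (hρB hz).2] at h3
    have hsub : ball (e y) ρ ⊆ B := fun z hz => (hρB hz).2
    have h4 := eq_const_mul_of_norm_eq (s := s) (s' := cf t F e) isOpen_ball
      (convex_ball (e y) ρ).isPreconnected (hs.mono hsub)
      (fun z hz => ((hgood z hz).1.differentiableAt (by simp)).differentiableWithinAt)
      (fun z hz => hs0 z (hsub hz)) (fun z hz => by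
        have h5 : ‖cf t F e z‖ ^ 2 = ‖s z‖ ^ 2 := by rw [(hgood z hz).2, hsφ z (hsub hz)]
        exact (pow_left_inj₀ (norm_nonneg _) (norm_nonneg _) two_ne_zero).1 h5)
      (mem_ball_self hρ)
    set c : ℂ := cf t F e (e y) / s (e y) with hc
    have hcn : ‖c‖ = 1 := by
      have h5 : ‖cf t F e (e y)‖ ^ 2 = ‖s (e y)‖ ^ 2 := by
        rw [(hgood _ (mem_ball_self hρ)).2, hsφ _ hey]
      have h6 := (pow_left_inj₀ (norm_nonneg _) (norm_nonneg _) two_ne_zero).1 h5
      rw [hc, norm_div, h6, div_self (norm_ne_zero_iff.2 (hs0 _ hey))]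
    refine ⟨G c, ⟨c, hcn, hG c⟩, ?_⟩
    rw [Germ.coe_eq]
    have h7 : ∀ᶠ y' in 𝓝 y, y' ∈ e.source ∧ e y' ∈ ball (e y) ρ := by
      have := (e.continuousAt haty.2).eventually (isOpen_ball.mem_nhds (mem_ball_self hρ))
      filter_upwards [this, e.open_source.mem_nhds haty.2] with y' h1 h2 using ⟨h2, h1⟩
    filter_upwards [h7] with y' hy'
    have hat' : At e y' := ⟨hat.1, hy'.1⟩
    have h8 := h4 _ hy'.2
    rw [cf_apply hat'] at h8
    show c * s (e y') / t e _ y' = F y'
    rw [← h8, mul_div_cancel_left₀ _ (ht.ne_zero hat' (at_chart y'))]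
  · rintro f ⟨c, hc, hf⟩ f' ⟨c', hc', hf'⟩ y hy hff z hz
    have hey : e y ∈ B := hy.2
    have h1 := (cf_congr (t := t) (hatU y hy) hff).self_of_nhds
    rw [hf _ hey, hf' _ hey] at h1
    have hcc : c = c' := mul_right_cancel₀ (hs0 _ hey) h1
    filter_upwards [hUo.mem_nhds hz] with y' hy'
    have hat' := hatU y' hy'
    have h2 := hf _ hy'.2
    have h3 := hf' _ hy'.2
    rw [cf_apply hat'] at h2 h3
    rw [← hcc, ← h2] at h3
    exact (mul_left_cancel₀ (ht.ne_zero hat' (at_chart y')) h3).symm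

/-- **Flat line bundles on simply connected manifolds**: a Hermitian holomorphic line bundle with
zero curvature has a holomorphic section of length `1`. -/
theorem exists_flat_section [SimplyConnectedSpace X] (ht : IsCocycle t)
    (hφ : ∀ e x, At e x → ContDiffAt ℝ 2 (φ e) (e x))
    (hφc : ∀ e e' x, At e x → At e' x → φ e (e x) = φ e' (e' x) + Real.log (‖t e e' x‖ ^ 2))
    (h0 : ∀ e x, At e x → cHess (φ e) (e x) = 0) :
    ∃ s : Chart n X → Cm n → ℂ, (∀ e x, At e x → ContDiffAt ℂ ω (s e) (e x)) ∧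
      (∀ e e' x, At e x → At e' x → s e (e x) = t e e' x * s e' (e' x)) ∧
      ∀ e x, At e x → ‖s e (e x)‖ ^ 2 = Real.exp (φ e (e x)) := by
  have hlp : LocallyPathConnectedSpace X := ChartedSpace.locallyPathConnectedSpace (Cm n) X
  obtain ⟨x₀⟩ := (inferInstance : Nonempty X)
  obtain ⟨U, S, hU, hx, ⟨f₀, hf₀⟩, ha, -, -⟩ := germs_local ht hφ hφc h0 x₀
  obtain ⟨F, hF, -⟩ := Vale.Agent.P278.exists_global_of_germs (V := germs t φ)
    (fun x => by
      obtain ⟨U, S, h1, h2, -, h3, h4, h5⟩ := germs_local ht hφ hφc h0 x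
      exact ⟨U, S, h1, h2, h3, h4, h5⟩) x₀ f₀ (ha f₀ hf₀ x₀ hx)
  have hgood : ∀ x, Good t φ F x := fun x => (mem_germs.1 (hF x)).self_of_nhds
  refine ⟨fun e z => cf t F e z, fun e x h => (hgood x e h).1, fun e e' x h h' => cf_change ht h h',
    fun e x h => (hgood x e h).2⟩

end Vale.Agent.P299.H720
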