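import Vale.Agent.P299.H720.VF
import Vale.Agent.P299.H720.Flat
import Vale.Agent.P272.K.Inv.Consts

/-! D4 (a, b2): the nowhere zero section of the anticanonical bundle of a Ricci flat simply
connected manifold, finiteness of the group of holomorphic isometries of a compact manifold without
holomorphic vector fields. -/

open scoped Manifold ContDiff ComplexOrder Topology
open Complex Set Filter Metric

set_option linter.unusedSectionVars false

noncomputable section

namespace Vale.Agent.P299.H720

open Vale.Agent.P272.K Vale.Agent.P272.BR Vale.Agent.P299.D Vale.Agent.P278.H837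

/-- **Finiteness** of the group of holomorphic isometries of a compact Hermitian manifold without
holomorphic vector fields. -/
theorem finite_of_noVF {n : ℕ} {X : Type*} [T : TopologicalSpace X] [T2Space X] [CompactSpace X]
    [ChartedSpace (Cm n) X] [IsManifold 𝓘(ℂ, Cm n) ω X] {w : FormM n X} (hw : IsHermitian w)
    (hv : ∀ v : VField n X, IsHolVF v → ∀ e x, At e x → v e (e x) = 0)
    (H : Subgroup (Equiv.Perm X)) (hH : H ≤ isoGroup hw) : Finite H := by
  obtain ⟨m, hm, hinv⟩ := exists_invariant_metric hw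
  subst hm
  by_contra hfin
  have hinf : Infinite H := not_finite_iff_infinite.1 hfin
  have hsmall : ∀ j : ℕ, ∃ h ∈ H, h ≠ 1 ∧ ∀ x, dist (h x) x < 1 / ((j : ℝ) + 1) := fun j =>
    exists_small (fun f hf x y => hinv f (hH hf) x y) hinf (by positivity)
  choose h hhH hh1 hhd using hsmall
  obtain ⟨v, hv1, e, x, hx, hvx⟩ := exists_vf (fun j => (h j : X → X))
    (fun j => (hH (hhH j)).1.hol) (fun j => by
      by_contra hcon
      push Not at hcon
      exact hh1 j (Equiv.ext hcon)) (fun ε hε => by
      obtain ⟨N, hN⟩ := exists_nat_one_div_lt hε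
      filter_upwards [eventually_ge_atTop N] with j hj x
      refine (hhd j x).trans (lt_of_le_of_lt ?_ hN)
      have : (N : ℝ) ≤ j := by exact_mod_cast hj
      gcongr)
  exact hvx (hv v hv1 e x hx)

variable {n : ℕ} {X : Type*} [TopologicalSpace X] [ChartedSpace (Cm n) X]
  [IsManifold 𝓘(ℂ, Cm n) ω X] {w : FormM n X} {e e' : Chart n X} {x : X}

lemma two_le_infty : (2 : WithTop ℕ∞) ≤ ∞ := WithTop.coe_le_coe.2 le_top

/-- the anticanonical bundle -/
lemma isCocycle_antican : IsCocycle (n := n) (X := X) fun e e' x => (jacM e e' x).det⁻¹ where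
  holo e e' x h h' := (jacM_det_holo h h').inv (by
    rw [h.left_inv]; exact jacM_det_ne_zero h h')
  mul e e' e'' x h h' h'' := by
    rw [jacM_comp h h' h'', Matrix.det_mul, mul_inv, mul_comm]
  self e x h := by rw [jacM_self h, Matrix.det_one, inv_one]

lemma det_re_pos (hw : IsHermitian w) (h : At e x) : 0 < (w e (e x)).det.re := by
  have := (hw.posDef e x h).det_pos
  exact (Complex.pos_iff.1 this).1

lemma contDiffAt_logdet (hw : IsHermitian w) (h : At e x) :
    ContDiffAt ℝ ∞ (fun z => Real.log (w e z).det.re) (e x) := by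
  have h1 : ContDiffAt ℝ ∞ (fun z => (w e z).det) (e x) := contDiffAt_det (hw.smooth e x h)
  have h2 : ContDiffAt ℝ ∞ (fun z => (w e z).det.re) (e x) :=
    Complex.reCLM.contDiff.contDiffAt.comp (e x) h1
  exact h2.log (det_re_pos hw h).ne'

/-- **The flat section of `-K`** on a simply connected Ricci flat manifold. -/
theorem exists_flat_antican [SimplyConnectedSpace X] (hw : IsHermitian w) (hr : RicZero w) :
    ∃ s : Chart n X → Cm n → ℂ, (∀ e x, At e x → ContDiffAt ℂ ω (s e) (e x)) ∧
      (∀ e e' x, At e x → At e' x → s e (e x) = (jacM e e' x).det⁻¹ * s e' (e' x)) ∧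
      ∀ e x, At e x → ‖s e (e x)‖ ^ 2 * (w e (e x)).det.re = 1 := by
  obtain ⟨s, h1, h2, h3⟩ := exists_flat_section (t := fun e e' x => (jacM e e' x).det⁻¹)
    (φ := fun e z => (-1) * Real.log (w e z).det.re) isCocycle_antican
    (fun e x h => contDiffAt_const.mul ((contDiffAt_logdet hw h).of_le two_le_infty))
    (fun e e' x h h' => by
      have h4 := det_form_re hw.isForm h h'
      have h5 := det_re_pos hw h'
      have h6 := norm_pos_iff.2 (jacM_det_ne_zero h h')
      rw [h4, Real.log_mul (by positivity) (by positivity), norm_inv, inv_pow, Real.log_inv]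
      ring)
    (fun e x h => by
      rw [cHess_const_mul (-1) ((contDiffAt_logdet hw h).of_le two_le_infty)]
      have h4 := hr e x h
      rw [ric, neg_eq_zero] at h4
      rw [h4, smul_zero])
  refine ⟨s, h1, h2, fun e x h => ?_⟩
  have h5 := det_re_pos hw h
  rw [h3 e x h, neg_one_mul, Real.exp_neg, Real.exp_log h5, inv_mul_cancel₀ h5.ne']

/-- the flat section as a tensor section -/
theorem exists_ten [SimplyConnectedSpace X] (hw : IsHermitian w) (hr : RicZero w) :
    ∃ s : Ten n 0 X, IsTen 0 1 s ∧ ∀ e y I, At e y → s e (e y) I ≠ 0 := by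
  obtain ⟨s, h1, h2, h3⟩ := exists_flat_antican hw hr
  refine ⟨fun e z _ => s e z, ⟨fun e x h I => ?_, fun e e' x h h' I => ?_⟩, fun e x I h h0 => ?_⟩
  · exact (h1 e x h).analyticAt
  · simp only [tenPull, Finset.univ_eq_empty, Finset.prod_empty, one_mul, pow_one,
      Finset.sum_const, Finset.card_univ]
    rw [h2 e e' x h h', mul_inv_cancel_left₀ (jacM_det_ne_zero h h')]
    simp
  · have h4 := h3 e x h
    have h5 : s e (e x) = 0 := h0
    rw [h5, norm_zero] at h4
    norm_num at h4

/-- **D4 (a, b)**, from the Bochner argument `hB` (holomorphic vector fields of a compact Ricci flat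
Kähler manifold are parallel). -/
theorem d4a_of (hB : ∀ (n : ℕ) (Z : Type) [TopologicalSpace Z] [T2Space Z] [CompactSpace Z]
    [ConnectedSpace Z] [ChartedSpace (Cm n) Z] [IsManifold 𝓘(ℂ, Cm n) ω Z] (w : FormM n Z),
    IsKahler w → RicZero w → ∀ v : VField n Z, IsHolVF v → IsParVF w v) : D4aStatement := by
  intro n X _ _ _ _ _ _ w hw hric S hc
  have hkah := S.kahY 1
  obtain ⟨s, hs, hs0⟩ := exists_ten hkah.toIsHermitian S.ric1
  refine ⟨s, hs, hs0, (S.ρ 1).ker, ?_, ?_⟩
  · have hH : (S.ρ 1).range ≤ isoGroup hkah.toIsHermitian := by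
      rintro _ ⟨g, rfl⟩
      refine ⟨⟨S.ρ_hol 1 g, fun e y h => S.ρ_iso 1 g e y h⟩, ?_⟩
      have h1 : (S.ρ 1 g).symm = S.ρ 1 g⁻¹ := by
        rw [map_inv]; rfl
      rw [h1]
      exact ⟨S.ρ_hol 1 g⁻¹, fun e y h => S.ρ_iso 1 g⁻¹ e y h⟩
    have hfin : Finite (S.ρ 1).range := finite_of_noVF hkah.toIsHermitian (fun v hv e x h =>
      S.noPar 1 (by decide) v (hB _ _ _ hkah S.ric1 v hv) e x h) _ hH
    exact Subgroup.finiteIndex_ker _
  · intro g hg e e' x h h' I
    have h1 : (S.ρ 1 g : S.Y 1 → S.Y 1) = fun x => x := by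
      rw [MonoidHom.mem_ker.1 hg]; rfl
    simp only [h1] at h' ⊢
    exact hs.change e e' x h h' I

end Vale.Agent.P299.H720
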