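import Vale.Agent.P299.H720.InvMet
import Vale.Agent.P228.H491.Isom
import Vale.Agent.P299.H996.TorusReal
import Mathlib.Analysis.InnerProductSpace.EuclideanDist

/-! D5: a group of commuting holomorphic isometries of a compact connected Hermitian manifold has a
subgroup of finite index contained in a torus of holomorphic isometries. -/

open scoped Manifold ContDiff ComplexOrder Topology
open Complex Set Filter Metric

set_option linter.unusedSectionVars false

noncomputable section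

namespace Vale.Agent.P299.H720

open Vale.Agent.P272.K Vale.Agent.P272.BR Vale.Agent.P299.D
open Vale.Agent.P228.H491 (isoTop)

/-- real charts on a complex manifold -/
@[reducible] def realCharted (n : ℕ) (Z : Type*) [TopologicalSpace Z] [ChartedSpace (Cm n) Z] :
    ChartedSpace (EuclideanSpace ℝ (Fin (Module.finrank ℝ (Cm n)))) Z :=
  letI h : ChartedSpace (EuclideanSpace ℝ (Fin (Module.finrank ℝ (Cm n)))) (Cm n) :=
    (toEuclidean (E := Cm n)).toHomeomorph.toOpenPartialHomeomorph.singletonChartedSpace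
      (by simp)
  ChartedSpace.comp _ (Cm n) Z

section
variable {n : ℕ} {Z : Type} [MetricSpace Z]

/-- the isometries given by a group action -/
def toIso {G : Type} [Group G] (ρ : G →* Equiv.Perm Z)
    (hρ : ∀ g x y, dist (ρ g x) (ρ g y) = dist x y) : G →* (Z ≃ᵢ Z) where
  toFun g := ⟨ρ g, Isometry.of_dist_eq (hρ g)⟩
  map_one' := by
    refine IsometryEquiv.ext fun x => ?_
    show ρ 1 x = x
    rw [map_one]; rfl
  map_mul' g h := by
    refine IsometryEquiv.ext fun x => ?_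
    show ρ (g * h) x = ρ g (ρ h x)
    rw [map_mul]; rfl

attribute [local instance] isoTop

/-- **The torus** -/
theorem exists_torus [CompactSpace Z] [ConnectedSpace Z] [ChartedSpace (Cm n) Z]
    {G : Type} [CommGroup G] (ρ : G →* Equiv.Perm Z)
    (hρ : ∀ g x y, dist (ρ g x) (ρ g y) = dist x y) :
    ∃ (K : Type) (_ : TopologicalSpace K) (f : K → Z → Z) (ι : G → K) (r : ℕ)
      (j : (Fin r → ℝ) → K) (G' : Subgroup G), G'.FiniteIndex ∧
      (Continuous fun q : K × Z => f q.1 q.2) ∧ Dense (range ι) ∧ (∀ g z, f (ι g) z = ρ g z) ∧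
      Continuous j ∧ (∀ z, f (j 0) z = z) ∧ (∀ s t z, f (j (s + t)) z = f (j s) (f (j t) z)) ∧
      (∀ (k : Fin r → ℤ) z, f (j fun i => (k i : ℝ)) z = z) ∧
      ∀ g ∈ G', ∃ t, ι g = j t := by
  have i1 : IsTopologicalGroup (Z ≃ᵢ Z) := P228.H491.isTopologicalGroup
  have i2 : T2Space (Z ≃ᵢ Z) := P228.H491.t2Space
  have i3 : CompactSpace (Z ≃ᵢ Z) := P228.H491.compactSpace_iso
  let Θ : G →* (Z ≃ᵢ Z) := toIso ρ hρ
  let K : Subgroup (Z ≃ᵢ Z) := Θ.range.topologicalClosure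
  have hcomm : ∀ x y : Θ.range, x * y = y * x := by
    rintro ⟨_, g, rfl⟩ ⟨_, h, rfl⟩
    apply Subtype.ext
    show Θ g * Θ h = Θ h * Θ g
    rw [← map_mul, ← map_mul, mul_comm]
  let iK : CommGroup K := Θ.range.commGroupTopologicalClosure hcomm
  have hKc : CompactSpace K :=
    isCompact_iff_compactSpace.1 (Θ.range.isClosed_topologicalClosure.isCompact)
  let c : ChartedSpace (EuclideanSpace ℝ (Fin (Module.finrank ℝ (Cm n)))) Z := realCharted n Z
  obtain ⟨-, -, hev, -, hU⟩ := P228.H491.iso_nss (Module.finrank ℝ (Cm n)) (M := Z)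
  obtain ⟨N, φ, hφ⟩ := hU inferInstance
  let φ' : K →* Matrix.unitaryGroup (Fin N) ℂ := φ.comp K.subtype
  have hφ'c : Continuous φ' := hφ.continuous.comp continuous_subtype_val
  have hφ'i : Function.Injective φ' := hφ.injective.comp Subtype.val_injective
  let ι : G →* K := Θ.codRestrict K fun g => Θ.range.le_topologicalClosure ⟨g, rfl⟩
  obtain ⟨G', hG', s, j, h1, h2, h3, h4, -⟩ :=
    H996.exists_real_torus_compact φ' hφ'c hφ'i ι
  have hj0 : j 0 = 1 := by
    have h5 := h3 0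
    have h6 : (fun a => (((0 : Fin s → ℤ) a : ℤ) : ℝ)) = (0 : Fin s → ℝ) := by
      funext a; simp
    rwa [h6] at h5
  refine ⟨K, inferInstance, fun k z => (k : Z ≃ᵢ Z) z, ι, s, j, G', hG', ?_, ?_, ?_, h1, ?_, ?_, ?_,
    h4⟩
  · exact hev.comp ((continuous_subtype_val.comp continuous_fst).prodMk continuous_snd)
  · rw [dense_iff_closure_eq, eq_univ_iff_forall]
    rintro ⟨k, hk⟩
    rw [closure_subtype]
    have h5 : k ∈ closure (Θ.range : Set (Z ≃ᵢ Z)) := hk
    refine closure_mono ?_ h5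
    rintro _ ⟨g, rfl⟩
    exact ⟨ι g, ⟨g, rfl⟩, rfl⟩
  · intro g z
    rfl
  · intro z
    simp only [hj0]
    rfl
  · intro a b z
    simp only [h2]
    rfl
  · intro k z
    simp only [h3]
    rfl

end

/-- **D5**, from the closure and smoothness lemmas. -/
theorem d5_of
    (hcl : ∀ (n : ℕ) (Z : Type) [TopologicalSpace Z] [T2Space Z] [CompactSpace Z]
      [ChartedSpace (Cm n) Z] [IsManifold 𝓘(ℂ, Cm n) ω Z] (w : FormM n Z), IsHermitian w →
      ∀ (K : Type) [TopologicalSpace K] (f : K → Z → Z),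
      (Continuous fun q : K × Z => f q.1 q.2) → ∀ S : Set K, Dense S →
      (∀ k ∈ S, ContMDiff 𝓘(ℂ, Cm n) 𝓘(ℂ, Cm n) ω (f k)) →
      (∀ k ∈ S, ∀ e z, At e z → pullM (f k) w e (e z) = w e (e z)) →
      (∀ k, ContMDiff 𝓘(ℂ, Cm n) 𝓘(ℂ, Cm n) ω (f k)) ∧
      (∀ k, ∀ e z, At e z → pullM (f k) w e (e z) = w e (e z)))
    (hsm : ∀ (n : ℕ) (Z : Type) [TopologicalSpace Z] [T2Space Z] [CompactSpace Z]
      [ChartedSpace (Cm n) Z] [IsManifold 𝓘(ℂ, Cm n) ω Z] (r : ℕ) (a : (Fin r → ℝ) → Z → Z),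
      (∀ z, a 0 z = z) → (∀ s t z, a (s + t) z = a s (a t z)) →
      (Continuous fun q : (Fin r → ℝ) × Z => a q.1 q.2) →
      (∀ t, ContMDiff 𝓘(ℂ, Cm n) 𝓘(ℂ, Cm n) ω (a t)) →
      ∀ (t : Fin r → ℝ) (z : Z) (e e' : Chart n Z), At e z → At e' (a t z) →
      ContDiffAt ℝ ∞ (fun q : (Fin r → ℝ) × Cm n => e' (a q.1 (e.symm q.2))) (t, e z)) :
    D5Statement := by
  intro n Z T _ _ _ _ _ _ w hw G _ _ ρ hol iso
  have hH := hw.toIsHermitian
  have hmem : ∀ g, ρ g ∈ isoGroup hH := by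
    intro g
    refine ⟨⟨hol g, iso g⟩, ?_⟩
    have h1 : (ρ g).symm = ρ g⁻¹ := by rw [map_inv]; rfl
    rw [h1]
    exact ⟨hol g⁻¹, iso g⁻¹⟩
  obtain ⟨m, hm, hinv⟩ := exists_invariant_metric hH
  subst hm
  obtain ⟨K, iK, f, ι, r, j, G', hG', hf, hd, hfι, hj, h0, hadd, hper, hg⟩ :=
    exists_torus (n := n) (Z := Z) ρ (fun g x y => hinv _ (hmem g) x y)
  have hfeq : ∀ g, f (ι g) = ρ g := fun g => funext (hfι g)
  obtain ⟨c1, c2⟩ := hcl n Z w hH K f hf (range ι) hd
    (by rintro _ ⟨g, rfl⟩; rw [hfeq]; exact hol g)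
    (by rintro _ ⟨g, rfl⟩; rw [hfeq]; exact iso g)
  have hcont : Continuous fun q : (Fin r → ℝ) × Z => f (j q.1) q.2 :=
    hf.comp ((hj.comp continuous_fst).prodMk continuous_snd)
  refine ⟨r, { a := fun t z => f (j t) z, zero := h0, add := hadd, per := hper, cont := hcont,
               hol := fun t => c1 (j t), iso := fun t => c2 (j t),
               smooth := hsm n Z r _ h0 hadd hcont fun t => c1 (j t) }, G', hG', fun g hg' => ?_⟩
  obtain ⟨t, ht⟩ := hg g hg'
  exact ⟨t, fun z => by rw [← hfι, ht]⟩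

end Vale.Agent.P299.H720
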