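import Vale.Agent.P268.Hol

/-! Montel's theorem along an ultrafilter (after `Vale.Agent.P274.Bdl.B1`). -/

open Filter Metric Set Topology

namespace Vale.Agent.P299.H720

variable {ι : Type*} {E F : Type*} [NormedAddCommGroup E] [NormedSpace ℂ E]
  [NormedAddCommGroup F] [NormedSpace ℂ F]

/-- A family of maps which is, eventually along `l`, holomorphic and bounded near every
point of `U`. -/
def LocBdd (l : Filter ι) (f : ι → E → F) (U : Set E) : Prop :=
  ∀ x ∈ U, ∃ r > 0, ∃ C : ℝ, ∀ᶠ j in l,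
    DifferentiableOn ℂ (f j) (ball x r) ∧ ∀ y ∈ ball x r, ‖f j y‖ ≤ C

theorem lip_of_bdd {f : E → F} {x : E} {r C : ℝ} (hr : 0 < r)
    (hd : DifferentiableOn ℂ f (ball x r)) (hC : ∀ y ∈ ball x r, ‖f y‖ ≤ C)
    {y z : E} (hy : y ∈ ball x (r / 4)) (hz : z ∈ ball x (r / 4)) :
    dist (f z) (f y) ≤ 4 * C / r * dist z y := by
  have hyb : ball y (r / 2) ⊆ ball x r := by
    intro w hw
    rw [mem_ball] at *
    have := dist_triangle w y x
    linarith
  have h1 : MapsTo f (ball y (r / 2)) (closedBall (f y) (2 * C)) := by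
    intro w hw
    have h1 := hC w (hyb hw)
    have h2 := hC y (hyb (mem_ball_self (by positivity)))
    rw [mem_closedBall, dist_eq_norm]
    have := norm_sub_le (f w) (f y)
    linarith
  have hzy : z ∈ ball y (r / 2) := by
    rw [mem_ball] at *
    have := dist_triangle z x y
    rw [dist_comm x y] at this
    linarith only [this, hz, hy]
  have h2 := Complex.dist_le_div_mul_dist_of_mapsTo_ball (hd.mono hyb) h1 hzy
  have h3 : 2 * C / (r / 2) = 4 * C / r := by field_simp; ring
  rwa [h3] at h2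

/-- Montel's theorem, with the extraction of a subsequence replaced by an ultrafilter limit. -/
theorem montel_full [ProperSpace E] [ProperSpace F] (𝒰 : Ultrafilter ι) {f : ι → E → F} {U : Set E}
    (hU : IsOpen U) (hf : LocBdd (𝒰 : Filter ι) f U) :
    ∃ g : E → F, DifferentiableOn ℂ g U ∧
      TendstoLocallyUniformlyOn f g (𝒰 : Filter ι) U ∧
      ∀ x ∈ U, ∀ u : ι → E, Tendsto u 𝒰 (𝓝 x) → Tendsto (fun j => f j (u j)) 𝒰 (𝓝 (g x)) := by
  have hlim : ∀ x : E, ∃ y : F, x ∈ U → Tendsto (fun j => f j x) 𝒰 (𝓝 y) := by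
    intro x
    by_cases hx : x ∈ U
    · obtain ⟨r, hr, C, hC⟩ := hf x hx
      have h1 : ∀ᶠ j in (𝒰 : Filter ι), f j x ∈ closedBall (0 : F) C := by
        filter_upwards [hC] with j hj
        simpa using hj.2 x (mem_ball_self hr)
      obtain ⟨y, -, hy⟩ := (isCompact_closedBall (0 : F) C).ultrafilter_le_nhds
        (𝒰.map (fun j => f j x)) (by
          rw [le_principal_iff]
          exact h1)
      exact ⟨y, fun _ => hy⟩
    · exact ⟨0, fun h => absurd h hx⟩
  choose g hg using hlim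
  -- continuous convergence
  have hcont : ∀ x ∈ U, ∀ u : ι → E, Tendsto u 𝒰 (𝓝 x) →
      Tendsto (fun j => f j (u j)) 𝒰 (𝓝 (g x)) := by
    intro x hx u hu
    obtain ⟨r, hr, C, hC⟩ := hf x hx
    have h1 : Tendsto (fun j => 4 * C / r * dist (u j) x) 𝒰 (𝓝 0) := by
      have : Tendsto (fun j => dist (u j) x) 𝒰 (𝓝 0) := tendsto_iff_dist_tendsto_zero.1 hu
      simpa using this.const_mul (4 * C / r)
    have h2 : Tendsto (fun j => dist (f j (u j)) (f j x)) 𝒰 (𝓝 0) := by
      refine squeeze_zero' (Eventually.of_forall fun j => dist_nonneg) ?_ h1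
      filter_upwards [hC, hu (ball_mem_nhds x (show 0 < r / 4 by positivity))] with j hj hj2
      exact lip_of_bdd hr hj.1 hj.2 (mem_ball_self (by positivity)) hj2
    exact (tendsto_iff_of_dist h2).2 (hg x hx)
  have hpt : ∀ x ∈ U, Tendsto (fun j => f j x) 𝒰 (𝓝 (g x)) := fun x hx => hg x hx
  suffices hmain : ∀ x ∈ U, DifferentiableAt ℂ g x ∧ ∃ ρ > 0, ∀ ε > 0,
      ∀ᶠ j in (𝒰 : Filter ι), ∀ y ∈ closedBall x ρ, dist (f j y) (g y) ≤ ε by
    refine ⟨g, fun x hx => (hmain x hx).1.differentiableWithinAt, ?_, hcont⟩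
    rw [Metric.tendstoLocallyUniformlyOn_iff]
    intro ε hε x hx
    obtain ⟨-, ρ, hρ, h⟩ := hmain x hx
    refine ⟨closedBall x ρ, mem_nhdsWithin_of_mem_nhds (closedBall_mem_nhds x hρ), ?_⟩
    filter_upwards [h (ε / 2) (by positivity)] with j hj y hy
    rw [dist_comm]
    linarith [hj y hy]
  intro x hx
  obtain ⟨r, hr, C, hC⟩ := hf x hx
  obtain ⟨ρ0, hρ0, hρU⟩ := Metric.isOpen_iff.1 hU x hx
  obtain ⟨ρ, hρ, hρ1, hρ2⟩ : ∃ ρ > 0, ρ < ρ0 ∧ ρ < r / 4 :=
    ⟨min ρ0 (r / 4) / 2, by positivity, by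
      have := min_le_left ρ0 (r / 4)
      have h2 : 0 < min ρ0 (r / 4) := by positivity
      linarith, by
      have := min_le_right ρ0 (r / 4)
      have h2 : 0 < min ρ0 (r / 4) := by positivity
      linarith⟩
  have hballU : closedBall x ρ ⊆ U := (closedBall_subset_ball hρ1).trans hρU
  have hballr : closedBall x ρ ⊆ ball x r := closedBall_subset_ball (by linarith)
  -- uniform convergence on the closed ball
  have huc : ∀ ε > 0, ∀ᶠ j in (𝒰 : Filter ι), ∀ y ∈ closedBall x ρ, dist (f j y) (g y) ≤ ε := by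
    intro ε hε
    by_contra hcon
    rw [← Ultrafilter.eventually_not] at hcon
    have h2 : ∀ᶠ j in (𝒰 : Filter ι), ∃ y, y ∈ closedBall x ρ ∧ ε < dist (f j y) (g y) := by
      filter_upwards [hcon] with j hj
      push Not at hj
      exact hj
    have h3 : ∃ u : ι → E, ∀ᶠ j in (𝒰 : Filter ι), u j ∈ closedBall x ρ ∧
        ε < dist (f j (u j)) (g (u j)) := by
      classical
      refine ⟨fun j => if h : ∃ y, y ∈ closedBall x ρ ∧ ε < dist (f j y) (g y)
        then h.choose else x, ?_⟩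
      filter_upwards [h2] with j hj
      simp only [hj, dite_true]
      exact hj.choose_spec
    obtain ⟨u, hu⟩ := h3
    obtain ⟨y, hy, hy2⟩ := (isCompact_closedBall x ρ).ultrafilter_le_nhds
        (𝒰.map u) (by
          rw [le_principal_iff]
          exact hu.mono fun j hj => hj.1)
    have hyU := hballU hy
    have hu2 : Tendsto u 𝒰 (𝓝 y) := hy2
    have h4 := hcont y hyU u hu2
    have h5 : Tendsto (fun j => g (u j)) 𝒰 (𝓝 (g y)) := by
      -- `g` is Lipschitz on the ball
      have h6 : ∀ᶠ j in (𝒰 : Filter ι), dist (g (u j)) (g y) ≤ 4 * C / r * dist (u j) y := by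
        filter_upwards [hu] with j hj
        have h7 : Tendsto (fun i => dist (f i (u j)) (f i y)) 𝒰 (𝓝 (dist (g (u j)) (g y))) :=
          (hpt _ (hballU hj.1)).dist (hpt _ hyU)
        refine le_of_tendsto h7 ?_
        filter_upwards [hC] with i hi
        exact lip_of_bdd hr hi.1 hi.2 (closedBall_subset_ball hρ2 hy)
          (closedBall_subset_ball hρ2 hj.1)
      have h7 : Tendsto (fun j => 4 * C / r * dist (u j) y) 𝒰 (𝓝 0) := by
        have : Tendsto (fun j => dist (u j) y) 𝒰 (𝓝 0) := tendsto_iff_dist_tendsto_zero.1 hu2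
        simpa using this.const_mul (4 * C / r)
      exact tendsto_iff_dist_tendsto_zero.2
        (squeeze_zero' (Eventually.of_forall fun j => dist_nonneg) h6 h7)
    have h8 : Tendsto (fun j => dist (f j (u j)) (g (u j))) 𝒰 (𝓝 0) := by
      simpa using h4.dist h5
    have h9 := h8.eventually (gt_mem_nhds hε)
    obtain ⟨j, hj1, hj2⟩ := (h9.and hu).exists
    linarith [hj2.2]
  -- Cauchy estimate for derivatives
  have hkey : ∀ η > 0, ∀ j k, DifferentiableOn ℂ (f j) (ball x r) →
      DifferentiableOn ℂ (f k) (ball x r) → (∀ y ∈ closedBall x ρ, dist (f j y) (g y) ≤ η) →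
      (∀ y ∈ closedBall x ρ, dist (f k y) (g y) ≤ η) →
      ∀ y ∈ ball x (ρ / 2), dist (fderiv ℂ (f j) y) (fderiv ℂ (f k) y) ≤ 8 * η / ρ := by
    intro η hη j k hj hk hj2 hk2 y hy
    have hyb : ball y (ρ / 2) ⊆ ball x ρ := by
      intro w hw
      rw [mem_ball] at *
      have := dist_triangle w y x
      linarith only [this, hw, hy]
    have hyr : ball y (ρ / 2) ⊆ ball x r := (hyb.trans ball_subset_closedBall).trans hballr
    have hyy : y ∈ ball x r := hyr (mem_ball_self (by positivity))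
    have hdj : DifferentiableAt ℂ (f j) y := hj.differentiableAt (isOpen_ball.mem_nhds hyy)
    have hdk : DifferentiableAt ℂ (f k) y := hk.differentiableAt (isOpen_ball.mem_nhds hyy)
    have hb : ∀ w ∈ ball y (ρ / 2), ‖(f j - f k) w‖ ≤ 2 * η := by
      intro w hw
      have h1 := hj2 w (ball_subset_closedBall (hyb hw))
      have h2 := hk2 w (ball_subset_closedBall (hyb hw))
      have h3 := dist_triangle_right (f j w) (f k w) (g w)
      rw [Pi.sub_apply, ← dist_eq_norm]
      linarith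
    have hm : MapsTo (f j - f k) (ball y (ρ / 2)) (closedBall ((f j - f k) y) (4 * η)) := by
      intro w hw
      have h1 := hb w hw
      have h2 := hb y (mem_ball_self (by positivity))
      rw [mem_closedBall, dist_eq_norm]
      have := norm_sub_le ((f j - f k) w) ((f j - f k) y)
      linarith
    have h1 := Complex.norm_fderiv_le_div_of_mapsTo_ball
      ((hj.mono hyr).sub (hk.mono hyr)) hm (by positivity)
    have h2 : fderiv ℂ (f j - f k) y = fderiv ℂ (f j) y - fderiv ℂ (f k) y :=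
      fderiv_sub hdj hdk
    rw [h2, ← dist_eq_norm] at h1
    have h3 : 4 * η / (ρ / 2) = 8 * η / ρ := by field_simp; ring
    rwa [h3] at h1
  have hgood : ∀ η > 0, ∀ᶠ j in (𝒰 : Filter ι), DifferentiableOn ℂ (f j) (ball x r) ∧
      ∀ y ∈ closedBall x ρ, dist (f j y) (g y) ≤ η := fun η hη =>
    (hC.mono fun j hj => hj.1).and (huc η hη)
  -- limits of the derivatives
  have hdlim : ∀ y : E, ∃ T : E →L[ℂ] F, y ∈ ball x (ρ / 2) →
      Tendsto (fun j => fderiv ℂ (f j) y) 𝒰 (𝓝 T) := by
    intro y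
    by_cases hy : y ∈ ball x (ρ / 2)
    · have hcau : Cauchy (map (fun j => fderiv ℂ (f j) y) (𝒰 : Filter ι)) := by
        rw [Metric.cauchy_iff]
        refine ⟨inferInstance, fun ε hε => ?_⟩
        have hη : 0 < ε * ρ / 16 := by positivity
        refine ⟨_, image_mem_map (hgood _ hη), ?_⟩
        rintro _ ⟨j, hj, rfl⟩ _ ⟨k, hk, rfl⟩
        have h := hkey _ hη j k hj.1 hk.1 hj.2 hk.2 y hy
        have h2 : 8 * (ε * ρ / 16) / ρ = ε / 2 := by field_simp; ring
        rw [h2] at h
        linarith only [h, hε]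
      obtain ⟨T, hT⟩ := CompleteSpace.complete hcau
      exact ⟨T, fun _ => hT⟩
    · exact ⟨0, fun h => absurd h hy⟩
  choose g' hg' using hdlim
  have hρ2 : 0 < ρ / 2 := by positivity
  have hunif : TendstoUniformlyOnFilter (fun j => fderiv ℂ (f j)) g' (𝒰 : Filter ι) (𝓝 x) := by
    rw [Metric.tendstoUniformlyOnFilter_iff]
    intro ε hε
    have hη : 0 < ε * ρ / 16 := by positivity
    have h1 := Filter.Eventually.prod_mk (hgood _ hη) (show ∀ᶠ y in 𝓝 x, y ∈ ball x (ρ / 2) from
      ball_mem_nhds x hρ2)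
    filter_upwards [h1] with n hn
    obtain ⟨hn1, hn2⟩ := hn
    have h2 : Tendsto (fun i => dist (fderiv ℂ (f i) n.2) (fderiv ℂ (f n.1) n.2)) 𝒰
        (𝓝 (dist (g' n.2) (fderiv ℂ (f n.1) n.2))) := (hg' _ hn2).dist tendsto_const_nhds
    have h3 : dist (g' n.2) (fderiv ℂ (f n.1) n.2) ≤ 8 * (ε * ρ / 16) / ρ := by
      refine le_of_tendsto h2 ?_
      filter_upwards [hgood _ hη] with i hi
      exact hkey _ hη i n.1 hi.1 hn1.1 hi.2 hn1.2 _ hn2
    have h4 : 8 * (ε * ρ / 16) / ρ = ε / 2 := by field_simp; ring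
    rw [h4] at h3
    linarith only [h3, hε]
  have hd : ∀ᶠ n : ι × E in (𝒰 : Filter ι) ×ˢ 𝓝 x,
      HasFDerivAt (f n.1) (fderiv ℂ (f n.1) n.2) n.2 := by
    have h1 := Filter.Eventually.prod_mk hC (show ∀ᶠ y in 𝓝 x, y ∈ ball x r from
      ball_mem_nhds x hr)
    filter_upwards [h1] with n hn
    exact (hn.1.1.differentiableAt (isOpen_ball.mem_nhds hn.2)).hasFDerivAt
  refine ⟨(hasFDerivAt_of_tendstoUniformlyOnFilter (f := f) hunif hd ?_).differentiableAt,
    ρ, hρ, huc⟩
  filter_upwards [ball_mem_nhds x hρ] with y hy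
  exact hpt y (hballU (ball_subset_closedBall hy))

/-- the derivatives converge as well -/
theorem montel_fderiv [FiniteDimensional ℂ E] [CompleteSpace F] {l : Filter ι} {f : ι → E → F}
    {g : E → F} {U : Set E} (hU : IsOpen U) (hf : LocBdd l f U) (hg : DifferentiableOn ℂ g U)
    (h : TendstoLocallyUniformlyOn f g l U) {x : E} (hx : x ∈ U) {u : ι → E}
    (hu : Tendsto u l (𝓝 x)) : Tendsto (fun j => fderiv ℂ (f j) (u j)) l (𝓝 (fderiv ℂ g x)) := by
  have hgc : ContinuousAt (fderiv ℂ g) x :=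
    (Vale.Agent.P268.continuousOn_fderiv_of_differentiableOn hU hg).continuousAt (hU.mem_nhds hx)
  have h1 : Tendsto (fun j => fderiv ℂ g (u j)) l (𝓝 (fderiv ℂ g x)) := hgc.tendsto.comp hu
  refine (tendsto_iff_of_dist ?_).2 h1
  rw [Metric.tendsto_nhds]
  intro ε hε
  obtain ⟨r, hr, C, hC⟩ := hf x hx
  obtain ⟨r', hr', hrU⟩ := Metric.isOpen_iff.1 hU x hx
  have : ProperSpace E := FiniteDimensional.proper ℂ E
  -- uniform convergence on a small ball
  set ρ : ℝ := min r r' / 2 with hρ
  have hm : 0 < min r r' := by positivity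
  have hρ0 : 0 < ρ := by positivity
  have hρr : ρ < r := by have := min_le_left r r'; rw [hρ]; linarith
  have hρr' : ρ < r' := by have := min_le_right r r'; rw [hρ]; linarith
  have hcU : closedBall x ρ ⊆ U := (closedBall_subset_ball hρr').trans hrU
  have hunif := (tendstoLocallyUniformlyOn_iff_forall_isCompact hU).1 h _ hcU
    (isCompact_closedBall x ρ)
  have h2 := Metric.tendstoUniformlyOn_iff.1 hunif (ε * ρ / 8) (by positivity)
  filter_upwards [h2, hC, hu.eventually (ball_mem_nhds x (half_pos hρ0))] with j hj hj' hju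
  have hsub : ball (u j) (ρ / 2) ⊆ ball x ρ := by
    intro y hy
    rw [mem_ball] at *
    have := dist_triangle y (u j) x
    linarith
  have hdj : DifferentiableOn ℂ (f j) (ball (u j) (ρ / 2)) :=
    hj'.1.mono (hsub.trans (ball_subset_ball hρr.le))
  have hdg : DifferentiableOn ℂ g (ball (u j) (ρ / 2)) :=
    hg.mono (hsub.trans (ball_subset_closedBall.trans hcU))
  have hmem : u j ∈ ball (u j) (ρ / 2) := mem_ball_self (half_pos hρ0)
  have h3 := Vale.Agent.P268.norm_fderiv_le_of_ball (half_pos hρ0) (hdj.sub hdg) (C := ε * ρ / 8)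
    (fun y hy => by
      have h4 := hj y (ball_subset_closedBall (hsub hy))
      rw [dist_comm, dist_eq_norm] at h4
      exact h4.le)
  have h5 : fderiv ℂ (f j - g) (u j) = fderiv ℂ (f j) (u j) - fderiv ℂ g (u j) :=
    fderiv_sub (hdj.differentiableAt (isOpen_ball.mem_nhds hmem))
      (hdg.differentiableAt (isOpen_ball.mem_nhds hmem))
  rw [h5, ← dist_eq_norm] at h3
  have h6 : ε * ρ / 8 / (ρ / 2) = ε / 4 := by field_simp; norm_num
  rw [h6] at h3
  simp only [dist_zero_right, Real.norm_eq_abs, abs_dist]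
  linarith

end Vale.Agent.P299.H720
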