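import Vale.Agent.P299.H720.InvMet
import Vale.Agent.P299.H720.Montel
import Vale.Agent.P299.H720.FlatLoc

/-! A sequence of holomorphic self maps converging to the identity, none of them the identity, gives
a nonzero holomorphic vector field. Consequently a compact Hermitian manifold without holomorphic
vector fields has only finitely many holomorphic isometries. -/

open scoped Manifold ContDiff ComplexOrder Topology
open Complex Set Filter Metric

set_option linter.unusedSectionVars false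

noncomputable section

namespace Vale.Agent.P299.H720

open Vale.Agent.P272.K Vale.Agent.P272.BR Vale.Agent.P299.D
open Vale.Agent.P272.K.LIN (Cov)

/-- an infinite group of isometries of a compact space has small nontrivial elements -/
theorem exists_small {X : Type*} [MetricSpace X] [CompactSpace X] {H : Subgroup (Equiv.Perm X)}
    (hH : ∀ f ∈ H, ∀ x y, dist (f x) (f y) = dist x y) (hinf : Infinite H) {ε : ℝ} (hε : 0 < ε) :
    ∃ h ∈ H, h ≠ 1 ∧ ∀ x, dist (h x) x < ε := by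
  classical
  set ρ : ℝ := ε / 8 with hρ
  have hρ0 : 0 < ρ := by positivity
  obtain ⟨t, -, htf, ht⟩ := (isCompact_univ (X := X)).finite_cover_balls hρ0
  have hc : ∀ x : X, ∃ y : t, dist x y < ρ := by
    intro x
    obtain ⟨y, hy, hxy⟩ := mem_iUnion₂.1 (ht (mem_univ x))
    exact ⟨⟨y, hy⟩, hxy⟩
  choose c hc using hc
  have : Finite t := htf
  let Φ : H → (t → t) := fun f x => c ((f : Equiv.Perm X) x)
  obtain ⟨f, g, hfg, hΦ⟩ := Finite.exists_ne_map_eq_of_infinite Φ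
  refine ⟨(f : Equiv.Perm X)⁻¹ * g, H.mul_mem (H.inv_mem f.2) g.2, ?_, ?_⟩
  · intro h
    apply hfg
    have h1 : (f : Equiv.Perm X) = g := by
      rw [inv_mul_eq_one] at h
      exact h
    exact Subtype.ext h1
  · intro y
    have h1 : dist (((f : Equiv.Perm X)⁻¹ * g) y) y = dist ((g : Equiv.Perm X) y) ((f : Equiv.Perm X) y) := by
      rw [← hH f f.2]
      congr 1
      exact (f : Equiv.Perm X).apply_symm_apply _
    rw [h1]
    set x := c y with hx
    have h2 : dist y x < ρ := hc y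
    have h3 : dist ((g : Equiv.Perm X) x) (c ((g : Equiv.Perm X) x)) < ρ := hc _
    have h4 : dist ((f : Equiv.Perm X) x) (c ((f : Equiv.Perm X) x)) < ρ := hc _
    have h5 : c ((f : Equiv.Perm X) x) = c ((g : Equiv.Perm X) x) := congrFun hΦ x
    rw [h5] at h4
    have h6 : dist ((g : Equiv.Perm X) y) ((g : Equiv.Perm X) x) < ρ := by rw [hH g g.2]; exact h2
    have h7 : dist ((f : Equiv.Perm X) y) ((f : Equiv.Perm X) x) < ρ := by rw [hH f f.2]; exact h2
    have h8 := dist_triangle ((g : Equiv.Perm X) y) ((g : Equiv.Perm X) x) ((f : Equiv.Perm X) y)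
    have h9 := dist_triangle ((g : Equiv.Perm X) x) (c ((g : Equiv.Perm X) x)) ((f : Equiv.Perm X) y)
    have h10 := dist_triangle (c ((g : Equiv.Perm X) x) : X) ((f : Equiv.Perm X) x)
      ((f : Equiv.Perm X) y)
    rw [dist_comm _ ((f : Equiv.Perm X) x)] at h10
    rw [dist_comm ((f : Equiv.Perm X) x) ((f : Equiv.Perm X) y)] at h10
    rw [hρ] at *
    linarith

/-- charts are uniformly continuous near compact sets -/
theorem uniform_chart {n : ℕ} {X : Type*} [MetricSpace X] (e : OpenPartialHomeomorph X (Cm n))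
    {K : Set (Cm n)} (hK : IsCompact K) (hKt : K ⊆ e.target) {η : ℝ} (hη : 0 < η) :
    ∃ ε > 0, ∀ z ∈ K, ∀ y : X, dist y (e.symm z) < ε → y ∈ e.source ∧ ‖e y - z‖ < η := by
  refine hK.induction_on (p := fun s => ∃ ε > 0, ∀ z ∈ s, ∀ y : X, dist y (e.symm z) < ε →
    y ∈ e.source ∧ ‖e y - z‖ < η) ⟨1, one_pos, fun z hz => hz.elim⟩ ?_ ?_ ?_
  · rintro s t hst ⟨ε, hε, h⟩
    exact ⟨ε, hε, fun z hz => h z (hst hz)⟩
  · rintro s t ⟨ε, hε, h⟩ ⟨ε', hε', h'⟩
    refine ⟨min ε ε', lt_min hε hε', ?_⟩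
    rintro z (hz | hz) y hy
    · exact h z hz y (hy.trans_le (min_le_left _ _))
    · exact h' z hz y (hy.trans_le (min_le_right _ _))
  · intro z hz
    have hzt := hKt hz
    have h1 : ∀ᶠ y in 𝓝 (e.symm z), y ∈ e.source ∧ ‖e y - z‖ < η / 2 := by
      have h2 : ContinuousAt e (e.symm z) := e.continuousAt (e.map_target hzt)
      have h3 : Tendsto (fun y => ‖e y - z‖) (𝓝 (e.symm z)) (𝓝 0) := by
        have h4 := (h2.tendsto.sub_const z).norm
        rwa [e.right_inv hzt, sub_self, norm_zero] at h4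
      have h5 : ∀ᶠ y in 𝓝 (e.symm z), y ∈ e.source := e.open_source.mem_nhds (e.map_target hzt)
      exact h5.and (h3.eventually (gt_mem_nhds (half_pos hη)))
    obtain ⟨r, hr, hrs⟩ := Metric.mem_nhds_iff.1 h1
    have h5 : ∀ᶠ z' in 𝓝 z, dist (e.symm z') (e.symm z) < r / 2 ∧ ‖z' - z‖ < η / 2 := by
      have h6 : ContinuousAt e.symm z := e.continuousAt_symm hzt
      refine (h6.eventually (ball_mem_nhds _ (half_pos hr))).and ?_
      filter_upwards [ball_mem_nhds z (half_pos hη)] with z' hz'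
      rwa [mem_ball, dist_eq_norm] at hz'
    refine ⟨_, mem_nhdsWithin_of_mem_nhds h5, r / 2, half_pos hr, fun z' hz' y hy => ?_⟩
    have h7 : y ∈ ball (e.symm z) r := by
      rw [mem_ball]
      have := dist_triangle y (e.symm z') (e.symm z)
      linarith [hz'.1]
    obtain ⟨h8, h9⟩ := hrs h7
    refine ⟨h8, ?_⟩
    have h10 : e y - z' = (e y - z) - (z' - z) := by abel
    rw [h10]
    have := norm_sub_le (e y - z) (z' - z)
    linarith [hz'.2]

variable {n : ℕ} {X : Type*} [MetricSpace X] [CompactSpace X] [ChartedSpace (Cm n) X]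
  [IsManifold 𝓘(ℂ, Cm n) ω X]

/-- **The vector field of a sequence converging to the identity.** -/
theorem exists_vf (h : ℕ → X → X) (hol : ∀ j, ContMDiff 𝓘(ℂ, Cm n) 𝓘(ℂ, Cm n) ω (h j))
    (hne : ∀ j, ∃ x, h j x ≠ x) (hε : ∀ ε > 0, ∀ᶠ j in atTop, ∀ x, dist (h j x) x < ε) :
    ∃ v : VField n X, IsHolVF v ∧ ∃ e x, At e x ∧ v e (e x) ≠ 0 := by
  classical
  obtain ⟨𝒞⟩ := Cov.nonempty (Cm n) X
  set 𝒰 : Ultrafilter ℕ := hyperfilter ℕ with h𝒰'
  have h𝒰 : (𝒰 : Filter ℕ) ≤ atTop := Nat.hyperfilter_le_atTop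
  have hballt : ∀ i, closedBall (𝒞.c i) (𝒞.r i) ⊆ (𝒞.e i).target := fun i =>
    (closedBall_subset_closedBall (by linarith [𝒞.r_pos i])).trans (𝒞.sub i)
  have hsm : ∀ η > 0, ∀ᶠ j in atTop, ∀ i, ∀ z ∈ closedBall (𝒞.c i) (𝒞.r i),
      h j ((𝒞.e i).symm z) ∈ (𝒞.e i).source ∧ ‖𝒞.e i (h j ((𝒞.e i).symm z)) - z‖ < η := by
    intro η hη
    rw [eventually_all]
    intro i
    obtain ⟨ε, hε0, hε'⟩ := uniform_chart (𝒞.e i) (isCompact_closedBall (𝒞.c i) (𝒞.r i))
      (hballt i) hη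
    filter_upwards [hε ε hε0] with j hj z hz
    exact hε' z hz _ (hj _)
  let A : ℕ → Set ℝ := fun j => {t | ∃ i, ∃ z ∈ closedBall (𝒞.c i) (𝒞.r i),
    t = ‖𝒞.e i (h j ((𝒞.e i).symm z)) - z‖}
  let δ : ℕ → ℝ := fun j => sSup (A j)
  have hAη : ∀ η > 0, ∀ᶠ j in atTop, ∀ t ∈ A j, t ≤ η := by
    intro η hη
    filter_upwards [hsm η hη] with j hj
    rintro t ⟨i, z, hz, rfl⟩
    exact (hj i z hz).2.le
  have hbdd : ∀ᶠ j in atTop, BddAbove (A j) := by
    filter_upwards [hAη 1 one_pos] with j hj using ⟨1, hj⟩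
  have hleδ : ∀ᶠ j in atTop, ∀ i, ∀ z ∈ closedBall (𝒞.c i) (𝒞.r i),
      ‖𝒞.e i (h j ((𝒞.e i).symm z)) - z‖ ≤ δ j := by
    filter_upwards [hbdd] with j hj i z hz
    exact le_csSup hj ⟨i, z, hz, rfl⟩
  have hδpos : ∀ᶠ j in atTop, 0 < δ j := by
    filter_upwards [hleδ, hsm 1 one_pos] with j hj hj'
    obtain ⟨x, hx⟩ := hne j
    obtain ⟨i, hi, hib⟩ := 𝒞.cover x
    have hz := ball_subset_closedBall hib
    refine lt_of_lt_of_le ?_ (hj i _ hz)
    have h1 := (hj' i _ hz).1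
    rw [(𝒞.e i).left_inv hi] at h1 ⊢
    rw [norm_pos_iff, sub_ne_zero]
    intro h2
    exact hx ((𝒞.e i).injOn h1 hi h2)
  have hAne : ∀ j, (A j).Nonempty := by
    intro j
    obtain ⟨x, -⟩ := hne j
    obtain ⟨i, hi, hib⟩ := 𝒞.cover x
    exact ⟨_, i, _, ball_subset_closedBall hib, rfl⟩
  have hδ0 : Tendsto δ atTop (𝓝 0) := by
    rw [Metric.tendsto_nhds]
    intro η hη
    filter_upwards [hAη (η / 2) (half_pos hη), hδpos] with j hj hj'
    rw [Real.dist_eq, sub_zero, abs_of_pos hj']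
    exact (csSup_le (hAne j) hj).trans_lt (half_lt_self hη)
  -- the difference quotients
  let f : Chart n X → ℕ → Cm n → Cm n := fun e j z =>
    (((δ j)⁻¹ : ℝ) : ℂ) • (e (h j (e.symm z)) - z)
  -- eventually `h j` is close to the identity near a point
  have hlocal : ∀ (e : Chart n X), e ∈ atlas (Cm n) X → ∀ z ∈ e.target, ∃ r > 0, ∃ C : ℝ, 0 ≤ C ∧
      ball z r ⊆ e.target ∧ ∀ᶠ j in atTop, ∀ y ∈ ball z r, h j (e.symm y) ∈ e.source ∧
        ‖e (h j (e.symm y)) - y‖ ≤ C * δ j := by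
    intro e he z hz
    set x := e.symm z with hx
    have hex : At e x := At.of_target he hz
    have hexz : e x = z := e.right_inv hz
    obtain ⟨i, hi, hib⟩ := 𝒞.cover x
    have hix : At (𝒞.e i) x := ⟨𝒞.mem i, hi⟩
    have hτ := transition hix hex
    obtain ⟨K, t, ht, hKt⟩ := (hτ.of_le (m := 1) le_top).exists_lipschitzOnWith
    -- a ball on which everything is defined
    have h1 : ∀ᶠ y in 𝓝 (𝒞.e i x), y ∈ t ∧ y ∈ (𝒞.e i).target ∧ (𝒞.e i).symm y ∈ e.source := by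
      filter_upwards [ht, hix.nhds_at hex] with y h2 h3 using ⟨h2, h3.1, h3.2.2.2⟩
    obtain ⟨s, hs, hss⟩ := Metric.mem_nhds_iff.1 h1
    have h2 : ∀ᶠ y in 𝓝 z, y ∈ e.target ∧ e.symm y ∈ (𝒞.e i).source ∧
        𝒞.e i (e.symm y) ∈ ball (𝒞.c i) (𝒞.r i) ∧ 𝒞.e i (e.symm y) ∈ ball (𝒞.e i x) (s / 2) := by
      have h3 : ContinuousAt (fun y => 𝒞.e i (e.symm y)) z := by
        have h4 : ContinuousAt e.symm z := e.continuousAt_symm hz
        exact ContinuousAt.comp (g := 𝒞.e i) ((𝒞.e i).continuousAt hi) h4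
      have h4 := hex.nhds_at hix
      rw [hexz] at h4
      filter_upwards [h4, h3.eventually (isOpen_ball.mem_nhds hib),
        h3.eventually (ball_mem_nhds _ (half_pos hs))] with y h5 h6 h7
      exact ⟨h5.1, h5.2.2.2, h6, h7⟩
    obtain ⟨r, hr, hrs⟩ := Metric.mem_nhds_iff.1 h2
    refine ⟨r, hr, K, K.2, fun y hy => (hrs hy).1, ?_⟩
    filter_upwards [hsm (s / 2) (half_pos hs), hleδ] with j hj hj' y hy
    obtain ⟨g1, g2, g3, g4⟩ := hrs hy
    have g5 := ball_subset_closedBall g3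
    obtain ⟨g6, g7⟩ := hj i _ g5
    rw [(𝒞.e i).left_inv g2] at g6 g7
    have g8 : 𝒞.e i (h j (e.symm y)) ∈ ball (𝒞.e i x) s := by
      rw [mem_ball, dist_eq_norm] at g4 ⊢
      have g9 : 𝒞.e i (h j (e.symm y)) - 𝒞.e i x =
          (𝒞.e i (h j (e.symm y)) - 𝒞.e i (e.symm y)) + (𝒞.e i (e.symm y) - 𝒞.e i x) := by abel
      rw [g9]
      have := norm_add_le (𝒞.e i (h j (e.symm y)) - 𝒞.e i (e.symm y)) (𝒞.e i (e.symm y) - 𝒞.e i x)
      linarith
    obtain ⟨k1, k2, k3⟩ := hss g8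
    rw [(𝒞.e i).left_inv g6] at k3
    refine ⟨k3, ?_⟩
    obtain ⟨l1, -, -⟩ := hss (ball_subset_ball (by linarith) g4)
    have l2 := hKt.dist_le_mul _ k1 _ l1
    simp only [(𝒞.e i).left_inv g6, (𝒞.e i).left_inv g2, e.right_inv g1] at l2
    rw [dist_eq_norm, dist_eq_norm] at l2
    refine l2.trans ?_
    have l3 := hj' i _ g5
    rw [(𝒞.e i).left_inv g2] at l3
    gcongr
  have hlb : ∀ e : Chart n X, e ∈ atlas (Cm n) X → LocBdd (𝒰 : Filter ℕ) (f e) e.target := by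
    intro e he z hz
    obtain ⟨r, hr, C, hC0, hrt, hC⟩ := hlocal e he z hz
    refine ⟨r, hr, C, ?_⟩
    refine Eventually.filter_mono h𝒰 ?_
    filter_upwards [hC, hδpos] with j hj hδj
    constructor
    · intro y hy
      have h1 : At e (e.symm y) := At.of_target he (hrt hy)
      have h2 : At e (h j (e.symm y)) := ⟨he, (hj y hy).1⟩
      have h3 := rep_differentiableAt (hol j).contMDiffAt h1 h2
      rw [e.right_inv (hrt hy)] at h3
      exact ((h3.sub differentiableAt_id).const_smul (((δ j)⁻¹ : ℝ) : ℂ)).differentiableWithinAt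
    · intro y hy
      have h1 := (hj y hy).2
      show ‖(((δ j)⁻¹ : ℝ) : ℂ) • _‖ ≤ C
      rw [norm_smul, Complex.norm_real, norm_inv, Real.norm_of_nonneg hδj.le,
        inv_mul_le_iff₀ hδj, mul_comm]
      exact h1
  have hm : ∀ e : Chart n X, ∃ g : Cm n → Cm n, e ∈ atlas (Cm n) X →
      DifferentiableOn ℂ g e.target ∧ ∀ x ∈ e.target, ∀ u : ℕ → Cm n, Tendsto u 𝒰 (𝓝 x) →
        Tendsto (fun j => f e j (u j)) 𝒰 (𝓝 (g x)) := by
    intro e
    by_cases he : e ∈ atlas (Cm n) X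
    · obtain ⟨g, g1, -, g3⟩ := montel_full 𝒰 e.open_target (hlb e he)
      exact ⟨g, fun _ => ⟨g1, g3⟩⟩
    · exact ⟨fun _ => 0, fun h => absurd h he⟩
  choose v hv using hm
  refine ⟨v, ⟨?_, ?_⟩, ?_⟩
  · intro e x hx
    exact Vale.Agent.P268.analyticAt_of_differentiableOn e.open_target (hv e hx.1).1 hx.mem_target
  · intro e e' x hx hx'
    have h1 := (hv e hx.1).2 _ hx.mem_target (fun _ => e x) tendsto_const_nhds
    have h2 := (hv e' hx'.1).2 _ hx'.mem_target (fun _ => e' x) tendsto_const_nhds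
    have hτ := transition_differentiableAt hx hx'
    have hconv : Tendsto (fun j => h j x) 𝒰 (𝓝 x) := by
      rw [Metric.tendsto_nhds]
      intro ε hε'
      exact Eventually.filter_mono h𝒰 ((hε ε hε').mono fun j hj => hj x)
    have hd : Tendsto (fun j => e (h j x) - e x) 𝒰 (𝓝 0) := by
      have := ((e.continuousAt hx.2).tendsto.comp hconv).sub_const (e x)
      rwa [sub_self] at this
    have h3 := hτ.hasFDerivAt.hasFDerivWithinAt.lim (s := univ) (l := (𝒰 : Filter ℕ))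
      (c := fun j => (((δ j)⁻¹ : ℝ) : ℂ)) (d := fun j => e (h j x) - e x) (v := v e (e x)) hd
      (Eventually.of_forall fun _ => mem_univ _) (by
        refine h1.congr fun j => ?_
        show (((δ j)⁻¹ : ℝ) : ℂ) • (e (h j (e.symm (e x))) - e x) = _
        rw [hx.left_inv])
    have h4 : Tendsto (fun j => (((δ j)⁻¹ : ℝ) : ℂ) • (e' (e.symm (e x + (e (h j x) - e x))) -
        e' (e.symm (e x)))) 𝒰 (𝓝 (v e' (e' x))) := by
      refine h2.congr' ?_
      have h5 : ∀ᶠ j in (𝒰 : Filter ℕ), h j x ∈ e.source :=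
        hconv.eventually (e.open_source.mem_nhds hx.2)
      filter_upwards [h5] with j hj
      show (((δ j)⁻¹ : ℝ) : ℂ) • (e' (h j (e'.symm (e' x))) - e' x) = _
      rw [hx'.left_inv, add_sub_cancel, e.left_inv hj, hx.left_inv]
    have h5 := tendsto_nhds_unique h4 h3
    rw [h5]
    funext p
    rw [jmat_mulVec hτ]
    rfl
  · -- nonvanishing
    have hex : ∀ᶠ j in (𝒰 : Filter ℕ), ∃ i, ∃ z ∈ closedBall (𝒞.c i) (𝒞.r i),
        δ j / 2 ≤ ‖𝒞.e i (h j ((𝒞.e i).symm z)) - z‖ := by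
      refine Eventually.filter_mono h𝒰 ?_
      filter_upwards [hδpos] with j hj
      obtain ⟨t, ⟨i, z, hz, rfl⟩, ht⟩ := exists_lt_of_lt_csSup (hAne j) (half_lt_self hj)
      exact ⟨i, z, hz, ht.le⟩
    have hex2 : ∃ i, ∀ᶠ j in (𝒰 : Filter ℕ), ∃ z ∈ closedBall (𝒞.c i) (𝒞.r i),
        δ j / 2 ≤ ‖𝒞.e i (h j ((𝒞.e i).symm z)) - z‖ := by
      by_contra hcon
      have h1 : ∀ i, ∀ᶠ j in (𝒰 : Filter ℕ), ¬ ∃ z ∈ closedBall (𝒞.c i) (𝒞.r i),
        δ j / 2 ≤ ‖𝒞.e i (h j ((𝒞.e i).symm z)) - z‖ := by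
        intro i
        rw [Ultrafilter.eventually_not]
        exact fun h => hcon ⟨i, h⟩
      obtain ⟨j, ⟨i, hi⟩, hj⟩ := (hex.and (eventually_all.2 h1)).exists
      exact hj i hi
    obtain ⟨i, hi⟩ := hex2
    let u : ℕ → Cm n := fun j => if hj : ∃ z ∈ closedBall (𝒞.c i) (𝒞.r i),
        δ j / 2 ≤ ‖𝒞.e i (h j ((𝒞.e i).symm z)) - z‖ then hj.choose else 𝒞.c i
    have hu : ∀ᶠ j in (𝒰 : Filter ℕ), u j ∈ closedBall (𝒞.c i) (𝒞.r i) ∧
        δ j / 2 ≤ ‖𝒞.e i (h j ((𝒞.e i).symm (u j))) - u j‖ := by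
      filter_upwards [hi] with j hj
      simp only [u, hj, dite_true]
      exact hj.choose_spec
    obtain ⟨z, hz, hz2⟩ := (isCompact_closedBall (𝒞.c i) (𝒞.r i)).ultrafilter_le_nhds
        (𝒰.map u) (by
          rw [le_principal_iff]
          exact hu.mono fun j hj => hj.1)
    have hzt := hballt i hz
    have hu2 : Tendsto u 𝒰 (𝓝 z) := hz2
    have h1 := (hv (𝒞.e i) (𝒞.mem i)).2 z hzt u hu2
    refine ⟨𝒞.e i, (𝒞.e i).symm z, At.of_target (𝒞.mem i) hzt, ?_⟩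
    rw [(𝒞.e i).right_inv hzt]
    intro h0
    rw [h0] at h1
    have h2 : Tendsto (fun j => ‖f (𝒞.e i) j (u j)‖) 𝒰 (𝓝 0) := by simpa using h1.norm
    have h3 : ∀ᶠ j in (𝒰 : Filter ℕ), (1 / 2 : ℝ) ≤ ‖f (𝒞.e i) j (u j)‖ := by
      filter_upwards [hu, Eventually.filter_mono h𝒰 hδpos] with j hj hδj
      show (1 / 2 : ℝ) ≤ ‖(((δ j)⁻¹ : ℝ) : ℂ) • _‖
      rw [norm_smul, Complex.norm_real, norm_inv, Real.norm_of_nonneg hδj.le,
        inv_mul_eq_div, le_div_iff₀ hδj]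
      linarith [hj.2]
    have h4 := ge_of_tendsto h2 h3
    norm_num at h4

end Vale.Agent.P299.H720
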